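import Vale.Agent.P338.R2.H651.PI.Main

/-!
# Programs acting on arrays with contents in an abelian group
-/

namespace Vale.Agent.P338.R2.H651.PI

set_option linter.unusedSectionVars false

open Matrix

section act

variable {ι κ : Type} [Fintype ι] [DecidableEq ι] [Fintype κ] [DecidableEq κ]
  {G : Type} [AddCommGroup G]

/-- An integral matrix acts on arrays. -/
def app (M : Matrix ι κ ℤ) (v : κ → G) (i : ι) : G := ∑ j, M i j • v j

/-- A slide acts on arrays: `v i += c v j`. -/
def Sl.act (s : Sl ι) (v : ι → G) : ι → G := Function.update v s.i (v s.i + (s.c : ℤ) • v s.j)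

/-- A program acts on arrays; the last slide of the list acts first. -/
def run (L : List (Sl ι)) (v : ι → G) : ι → G := L.foldr Sl.act v

@[simp] theorem run_nil (v : ι → G) : run [] v = v := rfl

@[simp] theorem run_cons (s : Sl ι) (L : List (Sl ι)) (v : ι → G) :
    run (s :: L) v = s.act (run L v) := rfl

theorem app_one (v : ι → G) : app (1 : Matrix ι ι ℤ) v = v := by
  funext i
  unfold app
  rw [Finset.sum_eq_single i]
  · simp
  · intro j _ hj
    simp [Matrix.one_apply_ne (Ne.symm hj)]
  · intro h
    exact absurd (Finset.mem_univ _) h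

theorem app_mul {μ : Type} (M : Matrix μ ι ℤ) (N : Matrix ι κ ℤ) (v : κ → G) :
    app (M * N) v = app M (app N v) := by
  funext i
  unfold app
  simp only [Matrix.mul_apply, Finset.sum_smul, Finset.smul_sum, mul_smul]
  rw [Finset.sum_comm]

theorem app_slide (s : Sl ι) (v : ι → G) : app s.mat v = s.act v := by
  funext i
  unfold app Sl.act Sl.mat
  simp only [Matrix.add_apply, add_smul, Finset.sum_add_distrib]
  have h1 : ∑ j, (1 : Matrix ι ι ℤ) i j • v j = v i := congrFun (app_one v) i
  rw [h1]
  by_cases h : i = s.i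
  · subst h
    rw [Function.update_self]
    congr 1
    rw [Finset.sum_eq_single s.j]
    · simp
    · intro j _ hj
      rw [Matrix.single_apply, if_neg (by tauto), zero_smul]
    · intro h
      exact absurd (Finset.mem_univ _) h
  · rw [Function.update_of_ne h, Finset.sum_eq_zero, add_zero]
    intro j _
    rw [Matrix.single_apply, if_neg (by tauto), zero_smul]

theorem app_pm (L : List (Sl ι)) (v : ι → G) : app (pm L) v = run L v := by
  induction L with
  | nil => exact app_one v
  | cons s L ih => rw [pm_cons, app_mul, app_slide, ih, run_cons]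

/-- A slide on every digit. -/
def Sl.actT (K : ℕ) (s : Sl ι) (v : (Fin K → ι) → G) : (Fin K → ι) → G := app (tpow s.mat K) v

theorem app_tpow_pm (K : ℕ) (L : List (Sl ι)) (v : (Fin K → ι) → G) :
    app (tpow (pm L) K) v = L.foldr (Sl.actT K) v := by
  induction L with
  | nil => rw [pm_nil, tpow_one', app_one]; rfl
  | cons s L ih => rw [pm_cons, tpow_mul_tpow, app_mul, ih]; rfl

/-- The sum over all greater arguments. -/
def zeta {m : ℕ} (v : (Fin m → Bool) → G) (x : Fin m → Bool) : G :=
  ∑ y with ∀ i, x i ≤ y i, v y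

theorem app_tpow_E {m : ℕ} (v : (Fin m → Bool) → G) : app (tpow E m) v = zeta v := by
  funext x
  unfold app zeta
  rw [Finset.sum_filter]
  refine Finset.sum_congr rfl fun y _ => ?_
  rw [tpow_apply]
  simp only [E_apply]
  by_cases h : ∀ i, x i ≤ y i
  · rw [if_pos h, Finset.prod_eq_one fun i _ => if_pos (h i), one_smul]
  · rw [if_neg h]
    push Not at h
    obtain ⟨i, hi⟩ := h
    rw [Finset.prod_eq_zero (Finset.mem_univ i) (if_neg (not_le.2 hi)), zero_smul]

end act

/-- **Short pure integral programs.** For every `ε > 0` and all large `m`, the zeta transform of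
functions on `{0,1}^m` is computed by a list of at most `ε m 2^(m-1)` slides `v_x += ± v_y`, with
contents in any abelian group. -/
theorem short_programs (ε : ℝ) (hε : 0 < ε) : ∃ m₀ : ℕ, ∀ m : ℕ, m₀ ≤ m →
    ∃ L : List (Sl (Fin m → Bool)), pm L = tpow E m ∧ (L.length : ℝ) ≤ ε * m * 2 ^ (m - 1) ∧
      ∀ (G : Type) [AddCommGroup G] (v : (Fin m → Bool) → G), run L v = zeta v := by
  obtain ⟨m₀, h⟩ := exists_short ε hε
  refine ⟨m₀, fun m hm => ?_⟩
  obtain ⟨L, h1, h2⟩ := h m hm
  exact ⟨L, h1, h2, fun G _ v => by rw [← app_pm, h1, app_tpow_E]⟩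

end Vale.Agent.P338.R2.H651.PI
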