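import Mathlib

/-!
# Integral slide programs

Programs over `ℤ` made of slides `x_i += ± x_j`; no permutations, no scalings.
-/

namespace Vale.Agent.P338.R2.H651.PI

set_option linter.unusedSectionVars false

open Matrix

/-- The slide `x_i += c x_j`, with `c = ± 1`. -/
structure Sl (ι : Type) where
  i : ι
  j : ι
  ne : i ≠ j
  c : ℤˣ

/-- The matrix of a slide. -/
def Sl.mat {ι : Type} [DecidableEq ι] (s : Sl ι) : Matrix ι ι ℤ := 1 + Matrix.single s.i s.j (s.c : ℤ)

/-- The matrix of a list of slides; the last element of the list acts first. -/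
def pm {ι : Type} [Fintype ι] [DecidableEq ι] (L : List (Sl ι)) : Matrix ι ι ℤ :=
  (L.map Sl.mat).prod

/-- `M` is a product of at most `x` slides. -/
def PB {ι : Type} [Fintype ι] [DecidableEq ι] (M : Matrix ι ι ℤ) (x : ℝ) : Prop :=
  ∃ L : List (Sl ι), pm L = M ∧ (L.length : ℝ) ≤ x

/-- The matrix `[[1,1],[0,1]]`. -/
def E : Matrix Bool Bool ℤ := Matrix.of fun a b => if a ≤ b then 1 else 0

/-- Tensor product of two square matrices. -/
def tensor {ι κ : Type} (A : Matrix ι ι ℤ) (B : Matrix κ κ ℤ) : Matrix (ι × κ) (ι × κ) ℤ :=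
  Matrix.of fun x y => A x.1 y.1 * B x.2 y.2

/-- Tensor power. -/
def tpow {ι : Type} (A : Matrix ι ι ℤ) (K : ℕ) : Matrix (Fin K → ι) (Fin K → ι) ℤ :=
  Matrix.of fun x y => ∏ i, A (x i) (y i)

@[simp] theorem E_apply (a b : Bool) : E a b = if a ≤ b then 1 else 0 := rfl

@[simp] theorem tensor_apply {ι κ : Type} (A : Matrix ι ι ℤ) (B : Matrix κ κ ℤ) (x y : ι × κ) :
    tensor A B x y = A x.1 y.1 * B x.2 y.2 := rfl

@[simp] theorem tpow_apply {ι : Type} (A : Matrix ι ι ℤ) (K : ℕ) (x y : Fin K → ι) :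
    tpow A K x y = ∏ i, A (x i) (y i) := rfl

section tensor

variable {ι κ : Type}

theorem tensor_mul [Fintype ι] [Fintype κ] (A A' : Matrix ι ι ℤ) (B B' : Matrix κ κ ℤ) :
    tensor (A * A') (B * B') = tensor A B * tensor A' B' := by
  ext x y
  simp only [tensor_apply, Matrix.mul_apply, Fintype.sum_prod_type, Finset.sum_mul_sum]
  refine Finset.sum_congr rfl fun i _ => Finset.sum_congr rfl fun j _ => ?_
  ring

theorem tensor_one [DecidableEq ι] [DecidableEq κ] :
    tensor (1 : Matrix ι ι ℤ) (1 : Matrix κ κ ℤ) = 1 := by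
  ext ⟨x, x'⟩ ⟨y, y'⟩
  simp only [tensor_apply, Matrix.one_apply, Prod.mk.injEq]
  by_cases h : x = y <;> by_cases h' : x' = y' <;> simp [h, h']

theorem tpow_mul_tpow [Fintype ι] (A B : Matrix ι ι ℤ) (K : ℕ) :
    tpow (A * B) K = tpow A K * tpow B K := by
  classical
  ext x y
  simp only [tpow_apply, Matrix.mul_apply]
  rw [Finset.prod_univ_sum, Fintype.piFinset_univ]
  refine Finset.sum_congr rfl fun k _ => ?_
  rw [Finset.prod_mul_distrib]

theorem tpow_one' [DecidableEq ι] (K : ℕ) : tpow (1 : Matrix ι ι ℤ) K = 1 := by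
  ext x y
  simp only [tpow_apply, Matrix.one_apply]
  split_ifs with h
  · subst h
    simp
  · obtain ⟨i, hi⟩ := Function.ne_iff.1 h
    exact Finset.prod_eq_zero (Finset.mem_univ i) (if_neg hi)

end tensor

/-! ### Programs -/

section prog

variable {ι κ : Type} [Fintype ι] [DecidableEq ι] [Fintype κ] [DecidableEq κ]

@[simp] theorem pm_nil : pm ([] : List (Sl ι)) = 1 := rfl

@[simp] theorem pm_cons (s : Sl ι) (L : List (Sl ι)) : pm (s :: L) = s.mat * pm L := by
  simp [pm]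

theorem pm_append (L L' : List (Sl ι)) : pm (L ++ L') = pm L * pm L' := by
  simp [pm]

theorem PB.one : PB (1 : Matrix ι ι ℤ) 0 := ⟨[], rfl, by simp⟩

theorem PB.le {M : Matrix ι ι ℤ} {x y : ℝ} (h : PB M x) (hxy : x ≤ y) : PB M y := by
  obtain ⟨L, hL, hx⟩ := h
  exact ⟨L, hL, hx.trans hxy⟩

theorem PB.nonneg {M : Matrix ι ι ℤ} {x : ℝ} (h : PB M x) : 0 ≤ x := by
  obtain ⟨L, hL, hx⟩ := h
  exact (Nat.cast_nonneg _).trans hx

theorem PB.mul {M N : Matrix ι ι ℤ} {x y : ℝ} (hM : PB M x) (hN : PB N y) :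
    PB (M * N) (x + y) := by
  obtain ⟨L, rfl, hx⟩ := hM
  obtain ⟨L', rfl, hy⟩ := hN
  refine ⟨L ++ L', pm_append L L', ?_⟩
  rw [List.length_append]
  push_cast
  linarith

theorem PB.slide (s : Sl ι) : PB s.mat 1 := ⟨[s], by simp [pm], by simp⟩

theorem PB.single {i j : ι} (hij : i ≠ j) {c : ℤ} (hc : c = 1 ∨ c = -1) :
    PB (1 + Matrix.single i j c) 1 := by
  rcases hc with rfl | rfl
  · exact PB.slide ⟨i, j, hij, 1⟩
  · exact PB.slide ⟨i, j, hij, -1⟩

/-- Programs are mapped slide by slide. -/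
theorem PB.map {M : Matrix ι ι ℤ} {x y : ℝ} (h : PB M x) (φ : Matrix ι ι ℤ → Matrix κ κ ℤ)
    (hone : φ 1 = 1) (hmul : ∀ A B, φ (A * B) = φ A * φ B) (hy : 0 ≤ y)
    (hs : ∀ s : Sl ι, PB (φ s.mat) y) : PB (φ M) (x * y) := by
  obtain ⟨L, rfl, hx⟩ := h
  have key : ∀ L : List (Sl ι), PB (φ (pm L)) (L.length * y) := by
    intro L
    induction L with
    | nil =>
      rw [pm_nil, hone]
      simpa using PB.one
    | cons s L ih =>
      rw [pm_cons, hmul]
      refine ((hs s).mul ih).le ?_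
      rw [List.length_cons]
      push_cast
      linarith
  exact (key L).le (mul_le_mul_of_nonneg_right hx hy)

/-- `M` has an inverse with a program of the same length. -/
theorem PB.inv {M : Matrix ι ι ℤ} {x : ℝ} (h : PB M x) {N : Matrix ι ι ℤ} (hN : M * N = 1) :
    PB N x := by
  obtain ⟨L, rfl, hx⟩ := h
  have key : ∀ L : List (Sl ι), ∃ L' : List (Sl ι), pm L' * pm L = 1 ∧ L'.length = L.length := by
    intro L
    induction L with
    | nil => exact ⟨[], by simp, rfl⟩
    | cons s L ih =>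
      obtain ⟨L', h1, h2⟩ := ih
      refine ⟨L' ++ [⟨s.i, s.j, s.ne, -s.c⟩], ?_, by simp [h2]⟩
      rw [pm_append, pm_cons, pm_cons, pm_nil, Matrix.mul_one]
      have h3 : Sl.mat (⟨s.i, s.j, s.ne, -s.c⟩ : Sl ι) * s.mat = 1 := by
        have h4 : Matrix.single s.i s.j (s.c : ℤ) * Matrix.single s.i s.j (s.c : ℤ) = 0 :=
          Matrix.single_mul_single_of_ne _ _ _ _ s.ne.symm _
        have h5 : Matrix.single s.i s.j (((-s.c : ℤˣ)) : ℤ) = - Matrix.single s.i s.j (s.c : ℤ) := by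
          ext a b
          simp only [Matrix.single_apply, Matrix.neg_apply]
          split_ifs <;> simp
        change (1 + Matrix.single s.i s.j (((-s.c : ℤˣ)) : ℤ)) *
          (1 + Matrix.single s.i s.j (s.c : ℤ)) = 1
        rw [h5, mul_add, mul_one, add_mul, one_mul, neg_mul, h4]
        simp
      rw [Matrix.mul_assoc, ← Matrix.mul_assoc _ s.mat, h3, Matrix.one_mul, h1]
  obtain ⟨L', h1, h2⟩ := key L
  refine ⟨L', ?_, by rw [h2]; exact hx⟩
  calc pm L' = pm L' * (pm L * N) := by rw [hN, Matrix.mul_one]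
    _ = N := by rw [← Matrix.mul_assoc, h1, Matrix.one_mul]

/-- Renaming cells. -/
theorem PB.submatrix {M : Matrix ι ι ℤ} {x : ℝ} (h : PB M x) (e : κ ≃ ι) :
    PB (M.submatrix e e) x := by
  have h1 := h.map (y := 1) (fun A => A.submatrix e e) (Matrix.submatrix_one_equiv e)
    (fun A B => (Matrix.submatrix_mul_equiv A B e e e).symm) zero_le_one fun s => by
      have h2 : s.mat.submatrix e e = 1 + Matrix.single (e.symm s.i) (e.symm s.j) (s.c : ℤ) := by
        unfold Sl.mat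
        ext a b
        simp [Matrix.one_apply, Matrix.single_apply, Equiv.symm_apply_eq]
      rw [h2]
      exact PB.slide ⟨e.symm s.i, e.symm s.j, fun h => s.ne (e.symm.injective h), s.c⟩
  rwa [mul_one] at h1

/-- A batch of slides. -/
theorem PB.batch {K : Type} (S : Finset K) (t s : K → ι) (c : K → ℤ)
    (hc : ∀ k ∈ S, c k = 1 ∨ c k = -1) (h : ∀ k ∈ S, ∀ k' ∈ S, t k ≠ s k') :
    PB (1 + ∑ k ∈ S, Matrix.single (t k) (s k) (c k)) S.card := by
  classical
  induction S using Finset.induction_on with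
  | empty => simpa using PB.one
  | insert a S ha ih =>
    have ih' := ih (fun k hk => hc k (Finset.mem_insert_of_mem hk))
      fun k hk k' hk' => h k (Finset.mem_insert_of_mem hk) k' (Finset.mem_insert_of_mem hk')
    have h1 : (1 + ∑ k ∈ insert a S, Matrix.single (t k) (s k) (c k)) =
        (1 + Matrix.single (t a) (s a) (c a)) *
          (1 + ∑ k ∈ S, Matrix.single (t k) (s k) (c k)) := by
      have h2 : Matrix.single (t a) (s a) (c a) *
          ∑ k ∈ S, Matrix.single (t k) (s k) (c k) = 0 := by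
        rw [Finset.mul_sum]
        refine Finset.sum_eq_zero fun k hk => ?_
        exact Matrix.single_mul_single_of_ne _ _ _ _
          (Ne.symm (h k (Finset.mem_insert_of_mem hk) a (Finset.mem_insert_self _ _))) _
      rw [Finset.sum_insert ha, mul_add, add_mul, add_mul, h2]
      simp only [Matrix.one_mul, Matrix.mul_one, add_zero]
      abel
    rw [h1, Finset.card_insert_of_notMem ha]
    refine ((PB.single (h a (Finset.mem_insert_self _ _) a (Finset.mem_insert_self _ _))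
      (hc a (Finset.mem_insert_self _ _))).mul ih').le ?_
    push_cast
    linarith

/-- Copies. -/
theorem PB.tensor_one {M : Matrix ι ι ℤ} {x : ℝ} (h : PB M x) :
    PB (tensor (1 : Matrix κ κ ℤ) M) (Fintype.card κ * x) := by
  have h1 := h.map (y := Fintype.card κ) (fun A => tensor (1 : Matrix κ κ ℤ) A)
    PI.tensor_one
    (fun A B => by
      have := tensor_mul (1 : Matrix κ κ ℤ) 1 A B
      rwa [Matrix.one_mul] at this) (Nat.cast_nonneg _) fun s => by
      have h2 : tensor (1 : Matrix κ κ ℤ) s.mat =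
          1 + ∑ k : κ, Matrix.single (k, s.i) (k, s.j) (s.c : ℤ) := by
        ext ⟨a, b⟩ ⟨a', b'⟩
        rw [Matrix.add_apply, Matrix.sum_apply, tensor_apply]
        simp only [Sl.mat, Matrix.add_apply, Matrix.single_apply, Prod.mk.injEq]
        by_cases h : a = a'
        · subst h
          rw [Finset.sum_eq_single a]
          · simp [Matrix.one_apply]
          · intro k _ hk
            simp [hk]
          · intro h
            exact absurd (Finset.mem_univ _) h
        · rw [Finset.sum_eq_zero]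
          · simp [Matrix.one_apply, h]
          · intro k _
            rw [if_neg]
            rintro ⟨⟨rfl, -⟩, ⟨rfl, -⟩⟩
            exact h rfl
      rw [h2]
      have h3 := PB.batch (Finset.univ : Finset κ) (fun k => (k, s.i)) (fun k => (k, s.j))
        (fun _ => (s.c : ℤ)) (fun _ _ => by
          rcases Int.units_eq_one_or s.c with h | h <;> simp [h])
        (fun k _ k' _ hk => s.ne (Prod.mk.inj hk).2)
      rwa [Finset.card_univ] at h3
  rwa [mul_comm] at h1

theorem PB.inl {M : Matrix ι ι ℤ} {x : ℝ} (h : PB M x) :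
    PB (fromBlocks M 0 0 (1 : Matrix κ κ ℤ)) x := by
  have h1 := h.map (y := 1) (fun A => fromBlocks A 0 0 (1 : Matrix κ κ ℤ)) fromBlocks_one
    (fun A B => by rw [fromBlocks_multiply]; simp) zero_le_one fun s => by
      have h2 : fromBlocks s.mat 0 0 (1 : Matrix κ κ ℤ) =
          1 + Matrix.single (Sum.inl s.i) (Sum.inl s.j) (s.c : ℤ) := by
        unfold Sl.mat
        ext (a | a) (b | b) <;> simp [Matrix.one_apply, Matrix.single_apply]
      rw [h2]
      exact PB.slide ⟨Sum.inl s.i, Sum.inl s.j, fun h => s.ne (Sum.inl_injective h), s.c⟩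
  rwa [mul_one] at h1

theorem PB.inr {M : Matrix ι ι ℤ} {x : ℝ} (h : PB M x) :
    PB (fromBlocks (1 : Matrix κ κ ℤ) 0 0 M) x := by
  have h1 := (h.inl (κ := κ)).submatrix (Equiv.sumComm κ ι)
  convert h1 using 1
  ext (a | a) (b | b) <;> simp

theorem PB.sum {M : Matrix ι ι ℤ} {N : Matrix κ κ ℤ} {x y : ℝ} (h : PB M x) (h' : PB N y) :
    PB (fromBlocks M 0 0 N) (x + y) := by
  have h1 := (h.inl (κ := κ)).mul (h'.inr (κ := ι))
  rw [fromBlocks_multiply] at h1
  simpa using h1

end prog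

/-! ### Renaming of rows and columns -/

/-- The matrices are the same up to the names of the cells. -/
def Eqv {α β : Type} (A : Matrix α α ℤ) (B : Matrix β β ℤ) : Prop :=
  ∃ e : α ≃ β, A = B.submatrix e e

section eqv

variable {α β γ δ : Type}

theorem Eqv.refl (A : Matrix α α ℤ) : Eqv A A := ⟨Equiv.refl _, rfl⟩

theorem Eqv.symm {A : Matrix α α ℤ} {B : Matrix β β ℤ} (h : Eqv A B) : Eqv B A := by
  obtain ⟨e, rfl⟩ := h
  exact ⟨e.symm, by ext i j; simp⟩

theorem Eqv.trans {A : Matrix α α ℤ} {B : Matrix β β ℤ} {C : Matrix γ γ ℤ} (h : Eqv A B)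
    (h' : Eqv B C) : Eqv A C := by
  obtain ⟨e, rfl⟩ := h
  obtain ⟨f, rfl⟩ := h'
  exact ⟨e.trans f, rfl⟩

theorem Eqv.card [Fintype α] [Fintype β] {A : Matrix α α ℤ} {B : Matrix β β ℤ} (h : Eqv A B) :
    Fintype.card α = Fintype.card β := by
  obtain ⟨e, -⟩ := h
  exact Fintype.card_congr e

theorem Eqv.tensor {A : Matrix α α ℤ} {B : Matrix β β ℤ} {C : Matrix γ γ ℤ} {D : Matrix δ δ ℤ}
    (h : Eqv A B) (h' : Eqv C D) : Eqv (tensor A C) (tensor B D) := by
  obtain ⟨e, rfl⟩ := h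
  obtain ⟨f, rfl⟩ := h'
  exact ⟨Equiv.prodCongr e f, rfl⟩

theorem Eqv.tensor_comm (A : Matrix α α ℤ) (B : Matrix β β ℤ) :
    Eqv (PI.tensor A B) (PI.tensor B A) :=
  ⟨Equiv.prodComm _ _, by ext x y; simp [mul_comm]⟩

theorem Eqv.tensor_assoc (A : Matrix α α ℤ) (B : Matrix β β ℤ) (C : Matrix γ γ ℤ) :
    Eqv (PI.tensor (PI.tensor A B) C) (PI.tensor A (PI.tensor B C)) :=
  ⟨Equiv.prodAssoc _ _ _, by ext x y; simp [mul_assoc]⟩

theorem Eqv.tensor_unit (A : Matrix α α ℤ) (B : Matrix Unit Unit ℤ) (hB : B () () = 1) :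
    Eqv (PI.tensor A B) A :=
  ⟨Equiv.prodPUnit _, by ext ⟨x, u⟩ ⟨y, v⟩; cases u; cases v; simp [hB]⟩

theorem Eqv.sum {A : Matrix α α ℤ} {B : Matrix β β ℤ} {C : Matrix γ γ ℤ}
    {D : Matrix δ δ ℤ} (h : Eqv A B) (h' : Eqv C D) :
    Eqv (fromBlocks A 0 0 C) (fromBlocks B 0 0 D) := by
  obtain ⟨e, rfl⟩ := h
  obtain ⟨f, rfl⟩ := h'
  refine ⟨Equiv.sumCongr e f, ?_⟩
  ext (i | i) (j | j) <;> simp

theorem tpow_succ (A : Matrix α α ℤ) (K : ℕ) : Eqv (tpow A (K + 1)) (tensor A (tpow A K)) := by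
  refine ⟨Fin.consEquiv (fun _ => α) |>.symm, ?_⟩
  ext x y
  simp only [tpow_apply, Matrix.submatrix_apply, tensor_apply, Fin.consEquiv_symm_apply]
  rw [Fin.prod_univ_succ]
  rfl

theorem tpow_zero (A : Matrix α α ℤ) : Eqv (tpow A 0) (1 : Matrix Unit Unit ℤ) := by
  refine ⟨Equiv.ofUnique _ _, ?_⟩
  ext x y
  simp

theorem tpow_add (A : Matrix α α ℤ) (j k : ℕ) :
    Eqv (tpow A (j + k)) (tensor (tpow A j) (tpow A k)) := by
  refine ⟨(Fin.appendEquiv j k).symm, ?_⟩
  ext x y
  simp only [tpow_apply, Matrix.submatrix_apply, tensor_apply]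
  rw [Fin.prod_univ_add]
  rfl

theorem tpow_mul (A : Matrix α α ℤ) (m K : ℕ) : Eqv (tpow (tpow A m) K) (tpow A (m * K)) := by
  refine ⟨?_, ?_⟩
  · exact ((Equiv.curry (Fin K) (Fin m) α).symm.trans
      (((Equiv.prodComm _ _).trans finProdFinEquiv).arrowCongr (Equiv.refl α)))
  · ext x y
    simp only [tpow_apply, Matrix.submatrix_apply]
    rw [← (((Equiv.prodComm (Fin K) (Fin m)).trans finProdFinEquiv)).prod_comp,
      Fintype.prod_prod_type]
    refine Finset.prod_congr rfl fun i _ => Finset.prod_congr rfl fun j _ => ?_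
    simp

theorem Eqv.tpow {A : Matrix α α ℤ} {B : Matrix β β ℤ} (h : Eqv A B) (K : ℕ) :
    Eqv (PI.tpow A K) (PI.tpow B K) := by
  obtain ⟨e, rfl⟩ := h
  exact ⟨Equiv.piCongrRight fun _ => e, rfl⟩

theorem Eqv.pb [Fintype α] [DecidableEq α] [Fintype β] [DecidableEq β] {A : Matrix α α ℤ}
    {B : Matrix β β ℤ} (h : Eqv A B) {x : ℝ} (hB : PB B x) : PB A x := by
  obtain ⟨e, rfl⟩ := h
  exact hB.submatrix e

end eqv

end Vale.Agent.P338.R2.H651.PI
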