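import Vale.Agent.P338.R2.H651.PI.Tr

/-!
# A cheaper program for four families of sources

`y[a,b,c,d] += u[b,c,d] + v[a,c,d] + w[a,b,d] + x[a,b,c]`, for `a, b, c` in `Fin h × Bool` and
`d` in `Fin m`, with about `31 h^3 m` additions instead of `32 h^3 m`.
-/

namespace Vale.Agent.P338.R2.H651.PI

set_option linter.unusedSectionVars false

open Matrix

/-! ### The cells -/

/-- The cells of the program. -/
inductive Wr (α D : Type) : Type
  | u (b c : α) (d : D) : Wr α D
  | v (a c : α) (d : D) : Wr α D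
  | w (a b : α) (d : D) : Wr α D
  | x (a b c : α) : Wr α D
  | y (a b c : α) (d : D) : Wr α D

section prog

variable {V : Type} [Fintype V] [DecidableEq V] {h m : ℕ}
  (ω : Wr (Fin h × Bool) (Fin m) → V)

/-- Blocks. -/
abbrev T (h : ℕ) := Fin h × Fin h × Fin h

def u₂ (i : Bool × Bool) (d : Fin m) (k : Fin h × Fin h) : V := ω (.u (k.1, i.1) (k.2, i.2) d)
def v₂ (i : Bool × Bool) (d : Fin m) (k : Fin h × Fin h) : V := ω (.v (k.1, i.1) (k.2, i.2) d)
def w₂ (i : Bool × Bool) (d : Fin m) (k : Fin h × Fin h) : V := ω (.w (k.1, i.1) (k.2, i.2) d)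
def x₃ (i : Bool × Bool × Bool) (k : T h) : V :=
  ω (.x (k.1, i.1) (k.2.1, i.2.1) (k.2.2, i.2.2))
def y₃ (i : Bool × Bool × Bool) (d : Fin m) (k : T h) : V :=
  ω (.y (k.1, i.1) (k.2.1, i.2.1) (k.2.2, i.2.2) d)

/-- `t += u_i`. -/
def tu (t : T h → V) (i : Bool × Bool) (d : Fin m) : Matrix V V ℤ :=
  tr t fun k => u₂ ω i d (k.2.1, k.2.2)
def tv (t : T h → V) (i : Bool × Bool) (d : Fin m) : Matrix V V ℤ :=
  tr t fun k => v₂ ω i d (k.1, k.2.2)
def tw (t : T h → V) (i : Bool × Bool) (d : Fin m) : Matrix V V ℤ :=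
  tr t fun k => w₂ ω i d (k.1, k.2.1)

/-- The walkers. -/
def zz : T h → V := x₃ ω (false, false, false)

variable {ω}

theorem u₂_inj (hω : Function.Injective ω) (i : Bool × Bool) (d : Fin m) :
    Function.Injective (u₂ ω i d) := by
  rintro ⟨a, b⟩ ⟨a', b'⟩ h
  have := hω h
  simp at this
  simp [this]

theorem v₂_inj (hω : Function.Injective ω) (i : Bool × Bool) (d : Fin m) :
    Function.Injective (v₂ ω i d) := by
  rintro ⟨a, b⟩ ⟨a', b'⟩ h
  have := hω h
  simp at this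
  simp [this]

theorem w₂_inj (hω : Function.Injective ω) (i : Bool × Bool) (d : Fin m) :
    Function.Injective (w₂ ω i d) := by
  rintro ⟨a, b⟩ ⟨a', b'⟩ h
  have := hω h
  simp at this
  simp [this]

theorem x₃_inj (hω : Function.Injective ω) (i : Bool × Bool × Bool) :
    Function.Injective (x₃ ω i) := by
  rintro ⟨a, b, c⟩ ⟨a', b', c'⟩ h
  have := hω h
  simp at this
  simp [this]

theorem u₂_ne (hω : Function.Injective ω) {i j : Bool × Bool} (hij : i ≠ j) (d d' : Fin m)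
    (k k' : Fin h × Fin h) : u₂ ω i d k ≠ u₂ ω j d' k' := by
  intro h
  have := hω h
  simp at this
  exact hij (Prod.ext this.1.2 this.2.1.2)

theorem v₂_ne (hω : Function.Injective ω) {i j : Bool × Bool} (hij : i ≠ j) (d d' : Fin m)
    (k k' : Fin h × Fin h) : v₂ ω i d k ≠ v₂ ω j d' k' := by
  intro h
  have := hω h
  simp at this
  exact hij (Prod.ext this.1.2 this.2.1.2)

theorem w₂_ne (hω : Function.Injective ω) {i j : Bool × Bool} (hij : i ≠ j) (d d' : Fin m)
    (k k' : Fin h × Fin h) : w₂ ω i d k ≠ w₂ ω j d' k' := by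
  intro h
  have := hω h
  simp at this
  exact hij (Prod.ext this.1.2 this.2.1.2)

theorem x₃_ne (hω : Function.Injective ω) {i j : Bool × Bool × Bool} (hij : i ≠ j)
    (k k' : T h) : x₃ ω i k ≠ x₃ ω j k' := by
  intro h
  have := hω h
  simp at this
  exact hij (Prod.ext this.1.2 (Prod.ext this.2.1.2 this.2.2.2))

/-- The cells `y`. -/
def isY (ω : Wr (Fin h × Bool) (Fin m) → V) (z : V) : Prop :=
  ∃ a b c d, z = ω (.y a b c d)

/-- The cells `x`. -/
def isX (ω : Wr (Fin h × Bool) (Fin m) → V) (z : V) : Prop :=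
  ∃ a b c, z = ω (.x a b c)

/-- The cost of a difference. -/
noncomputable def δ₁ (h : ℕ) : ℝ := (h : ℝ) ^ 3 + 2 * (h : ℝ) ^ 2

theorem δ₁_nonneg (h : ℕ) : 0 ≤ δ₁ h := by unfold δ₁; positivity

/-- Adding differences of `u`, `v`, `w`. -/
theorem pb_du (hω : Function.Injective ω) (t : T h → V)
    (h1 : ∀ k, isX ω (t k) ∨ isY ω (t k)) {i j : Bool × Bool} (hij : i ≠ j) (d d' : Fin m) :
    PB (1 + (tu ω t i d - tu ω t j d')) (δ₁ h) := by
  have h2 := PB.diff t (u₂ ω i d) (u₂ ω j d') (fun k : T h => (k.2.1, k.2.2)) (u₂_inj hω i d)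
    (fun k k' h => by
      rcases h1 k with ⟨a, b, c, e⟩ | ⟨a, b, c, d, e⟩
      · rw [e] at h; cases hω h
      · rw [e] at h; cases hω h)
    (fun k k' h => by
      rcases h1 k with ⟨a, b, c, e⟩ | ⟨a, b, c, d, e⟩
      · rw [e] at h; cases hω h
      · rw [e] at h; cases hω h)
    (u₂_ne hω hij d d')
  refine h2.le (le_of_eq ?_)
  simp only [Fintype.card_prod, Fintype.card_fin, δ₁]
  push_cast
  ring

theorem pb_dv (hω : Function.Injective ω) (t : T h → V)
    (h1 : ∀ k, isX ω (t k) ∨ isY ω (t k)) {i j : Bool × Bool} (hij : i ≠ j) (d d' : Fin m) :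
    PB (1 + (tv ω t i d - tv ω t j d')) (δ₁ h) := by
  have h2 := PB.diff t (v₂ ω i d) (v₂ ω j d') (fun k : T h => (k.1, k.2.2)) (v₂_inj hω i d)
    (fun k k' h => by
      rcases h1 k with ⟨a, b, c, e⟩ | ⟨a, b, c, d, e⟩
      · rw [e] at h; cases hω h
      · rw [e] at h; cases hω h)
    (fun k k' h => by
      rcases h1 k with ⟨a, b, c, e⟩ | ⟨a, b, c, d, e⟩
      · rw [e] at h; cases hω h
      · rw [e] at h; cases hω h)
    (v₂_ne hω hij d d')
  refine h2.le (le_of_eq ?_)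
  simp only [Fintype.card_prod, Fintype.card_fin, δ₁]
  push_cast
  ring

theorem pb_dw (hω : Function.Injective ω) (t : T h → V)
    (h1 : ∀ k, isX ω (t k) ∨ isY ω (t k)) {i j : Bool × Bool} (hij : i ≠ j) (d d' : Fin m) :
    PB (1 + (tw ω t i d - tw ω t j d')) (δ₁ h) := by
  have h2 := PB.diff t (w₂ ω i d) (w₂ ω j d') (fun k : T h => (k.1, k.2.1)) (w₂_inj hω i d)
    (fun k k' h => by
      rcases h1 k with ⟨a, b, c, e⟩ | ⟨a, b, c, d, e⟩
      · rw [e] at h; cases hω h
      · rw [e] at h; cases hω h)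
    (fun k k' h => by
      rcases h1 k with ⟨a, b, c, e⟩ | ⟨a, b, c, d, e⟩
      · rw [e] at h; cases hω h
      · rw [e] at h; cases hω h)
    (w₂_ne hω hij d d')
  refine h2.le (le_of_eq ?_)
  simp only [Fintype.card_prod, Fintype.card_fin, δ₁]
  push_cast
  ring

/-! ### One way facts -/

theorem zz_isX (k : T h) : isX ω (zz ω k) := ⟨_, _, _, rfl⟩

theorem y₃_isY (i : Bool × Bool × Bool) (d : Fin m) (k : T h) : isY ω (y₃ ω i d k) :=
  ⟨_, _, _, _, rfl⟩

theorem x₃_not_isY (hω : Function.Injective ω) (i : Bool × Bool × Bool) (k : T h) :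
    ¬ isY ω (x₃ ω i k) := by
  rintro ⟨a, b, c, d, e⟩
  cases hω e

theorem u₂_not_isY (hω : Function.Injective ω) (i : Bool × Bool) (d : Fin m)
    (k : Fin h × Fin h) : ¬ isY ω (u₂ ω i d k) := by
  rintro ⟨a, b, c, d, e⟩
  cases hω e

theorem v₂_not_isY (hω : Function.Injective ω) (i : Bool × Bool) (d : Fin m)
    (k : Fin h × Fin h) : ¬ isY ω (v₂ ω i d k) := by
  rintro ⟨a, b, c, d, e⟩
  cases hω e

theorem w₂_not_isY (hω : Function.Injective ω) (i : Bool × Bool) (d : Fin m)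
    (k : Fin h × Fin h) : ¬ isY ω (w₂ ω i d k) := by
  rintro ⟨a, b, c, d, e⟩
  cases hω e

theorem u₂_not_isX (hω : Function.Injective ω) (i : Bool × Bool) (d : Fin m)
    (k : Fin h × Fin h) : ¬ isX ω (u₂ ω i d k) := by
  rintro ⟨a, b, c, e⟩
  cases hω e

theorem v₂_not_isX (hω : Function.Injective ω) (i : Bool × Bool) (d : Fin m)
    (k : Fin h × Fin h) : ¬ isX ω (v₂ ω i d k) := by
  rintro ⟨a, b, c, e⟩
  cases hω e

theorem w₂_not_isX (hω : Function.Injective ω) (i : Bool × Bool) (d : Fin m)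
    (k : Fin h × Fin h) : ¬ isX ω (w₂ ω i d k) := by
  rintro ⟨a, b, c, e⟩
  cases hω e

theorem zz_or (k : T h) : isX ω (zz ω k) ∨ isY ω (zz ω k) := Or.inl (zz_isX k)

theorem y_or (i : Bool × Bool × Bool) (d : Fin m) (k : T h) :
    isX ω (y₃ ω i d k) ∨ isY ω (y₃ ω i d k) := Or.inr (y₃_isY i d k)

/-- A batch of plain additions. -/
theorem pb_plain (t s : T h → V) (hts : ∀ k k', t k ≠ s k') :
    PB (1 + tr t s) ((h : ℝ) ^ 3) := by
  refine (PB.tr t s hts).le (le_of_eq ?_)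
  simp only [Fintype.card_prod, Fintype.card_fin]
  push_cast
  ring

theorem pb_plain_sub (t s : T h → V) (hts : ∀ k k', t k ≠ s k') :
    PB (1 - tr t s) ((h : ℝ) ^ 3) := by
  refine (PB.sub_tr t s hts).le (le_of_eq ?_)
  simp only [Fintype.card_prod, Fintype.card_fin]
  push_cast
  ring

/-! ### The walk -/

/-- The positions of the walker. -/
def pos (ω : Wr (Fin h × Bool) (Fin m) → V) : ℕ → Fin m → Matrix V V ℤ
  | 0, d => tu ω (zz ω) (false, false) d + tv ω (zz ω) (false, false) d +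
      tw ω (zz ω) (false, true) d
  | 1, d => tu ω (zz ω) (false, false) d + tv ω (zz ω) (false, true) d +
      tw ω (zz ω) (false, true) d
  | 2, d => tu ω (zz ω) (false, false) d + tv ω (zz ω) (false, true) d +
      tw ω (zz ω) (true, false) d
  | _, d => tu ω (zz ω) (false, true) d + tv ω (zz ω) (false, true) d +
      tw ω (zz ω) (true, false) d

/-- `y_i += walker`. -/
def yz (ω : Wr (Fin h × Bool) (Fin m) → V) (i : Bool × Bool × Bool) (d : Fin m) :
    Matrix V V ℤ := tr (y₃ ω i d) (zz ω)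

/-- The services. -/
def ser (ω : Wr (Fin h × Bool) (Fin m) → V) : ℕ → Fin m → Matrix V V ℤ
  | 0, d => yz ω (false, true, false) d + yz ω (false, false, false) d
  | 1, d => yz ω (false, true, true) d
  | 2, d => yz ω (true, false, false) d
  | _, d => yz ω (true, false, true) d + yz ω (false, false, true) d

theorem oneWay_tu_z (hω : Function.Injective ω) (i : Bool × Bool) (d : Fin m) :
    OneWay (isX ω) (tu ω (zz ω) i d) :=
  OneWay.tr zz_isX fun _ => u₂_not_isX hω _ _ _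

theorem oneWay_tv_z (hω : Function.Injective ω) (i : Bool × Bool) (d : Fin m) :
    OneWay (isX ω) (tv ω (zz ω) i d) :=
  OneWay.tr zz_isX fun _ => v₂_not_isX hω _ _ _

theorem oneWay_tw_z (hω : Function.Injective ω) (i : Bool × Bool) (d : Fin m) :
    OneWay (isX ω) (tw ω (zz ω) i d) :=
  OneWay.tr zz_isX fun _ => w₂_not_isX hω _ _ _

theorem oneWay_pos (hω : Function.Injective ω) (r : ℕ) (d : Fin m) :
    OneWay (isX ω) (pos ω r d) := by
  rcases r with _ | _ | _ | r <;>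
    exact ((oneWay_tu_z hω _ _).add (oneWay_tv_z hω _ _)).add (oneWay_tw_z hω _ _)

theorem oneWay_yz (hω : Function.Injective ω) (i : Bool × Bool × Bool) (d : Fin m) :
    OneWay (isY ω) (yz ω i d) :=
  OneWay.tr (y₃_isY i d) fun _ => x₃_not_isY hω _ _

theorem oneWay_ser (hω : Function.Injective ω) (r : ℕ) (d : Fin m) :
    OneWay (isY ω) (ser ω r d) := by
  rcases r with _ | _ | _ | r
  · exact (oneWay_yz hω _ _).add (oneWay_yz hω _ _)
  · exact oneWay_yz hω _ _
  · exact oneWay_yz hω _ _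
  · exact (oneWay_yz hω _ _).add (oneWay_yz hω _ _)

/-- The walker is not a target of the services. -/
theorem pos_mul_ser (hω : Function.Injective ω) (r s : ℕ) (d e : Fin m) :
    pos ω r d * ser ω s e = 0 := by
  have h1 : ∀ i : Bool × Bool × Bool, pos ω r d * yz ω i e = 0 := by
    intro i
    have hu : ∀ j, tu ω (zz ω) j d * yz ω i e = 0 := fun j =>
      tr_mul_eq_zero _ _ _ _ fun k k' hk => by cases hω hk
    have hv : ∀ j, tv ω (zz ω) j d * yz ω i e = 0 := fun j =>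
      tr_mul_eq_zero _ _ _ _ fun k k' hk => by cases hω hk
    have hw : ∀ j, tw ω (zz ω) j d * yz ω i e = 0 := fun j =>
      tr_mul_eq_zero _ _ _ _ fun k k' hk => by cases hω hk
    rcases r with _ | _ | _ | r <;>
      (simp only [pos]; rw [add_mul, add_mul, hu, hv, hw, add_zero, add_zero])
  rcases s with _ | _ | _ | s
  · simp only [ser]; rw [mul_add, h1, h1, add_zero]
  · simp only [ser]; rw [h1]
  · simp only [ser]; rw [h1]
  · simp only [ser]; rw [mul_add, h1, h1, add_zero]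

/-- `y_i += u_j` through the walker. -/
theorem yz_mul_tu (hω : Function.Injective ω) (i : Bool × Bool × Bool) (j : Bool × Bool)
    (d e : Fin m) : yz ω i d * tu ω (zz ω) j e = tu ω (y₃ ω i d) j e :=
  tr_mul_tr (y₃ ω i d) (zz ω) (fun k => k) _ (x₃_inj hω _)

theorem yz_mul_tv (hω : Function.Injective ω) (i : Bool × Bool × Bool) (j : Bool × Bool)
    (d e : Fin m) : yz ω i d * tv ω (zz ω) j e = tv ω (y₃ ω i d) j e :=
  tr_mul_tr (y₃ ω i d) (zz ω) (fun k => k) _ (x₃_inj hω _)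

theorem yz_mul_tw (hω : Function.Injective ω) (i : Bool × Bool × Bool) (j : Bool × Bool)
    (d e : Fin m) : yz ω i d * tw ω (zz ω) j e = tw ω (y₃ ω i d) j e :=
  tr_mul_tr (y₃ ω i d) (zz ω) (fun k => k) _ (x₃_inj hω _)

theorem op_yz (hω : Function.Injective ω) (i : Bool × Bool × Bool) (d : Fin m) :
    OP (isY ω) (yz ω i d) ((h : ℝ) ^ 3) :=
  ⟨oneWay_yz hω i d, pb_plain (y₃ ω i d) (zz ω) fun k k' hk => by cases hω hk⟩

/-- The time. -/
def tm (hm : 0 < m) (q : ℕ) : Fin m := ⟨min q (m - 1), by omega⟩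

theorem tm_of_lt (hm : 0 < m) (d : Fin m) : tm hm (d : ℕ) = d := by
  ext
  simp only [tm]
  omega

/-- Positions as a sequence. -/
def PP (ω : Wr (Fin h × Bool) (Fin m) → V) (hm : 0 < m) (k : ℕ) : Matrix V V ℤ :=
  pos ω (k % 4) (tm hm (k / 4))

def RR (ω : Wr (Fin h × Bool) (Fin m) → V) (hm : 0 < m) (k : ℕ) : Matrix V V ℤ :=
  ser ω (k % 4) (tm hm (k / 4))

theorem PP_eq (hm : 0 < m) (q r : ℕ) (hr : r < 4) :
    PP ω hm (4 * q + r) = pos ω r (tm hm q) := by
  unfold PP
  rw [show (4 * q + r) % 4 = r by omega, show (4 * q + r) / 4 = q by omega]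

theorem RR_eq (hm : 0 < m) (q r : ℕ) (hr : r < 4) :
    RR ω hm (4 * q + r) = ser ω r (tm hm q) := by
  unfold RR
  rw [show (4 * q + r) % 4 = r by omega, show (4 * q + r) / 4 = q by omega]

theorem pb_step (hω : Function.Injective ω) (hm : 0 < m) (k : ℕ) :
    PB (1 + (PP ω hm (k + 1) - PP ω hm k)) (if k % 4 = 3 then 3 * δ₁ h else δ₁ h) := by
  obtain ⟨q, r, hr, rfl⟩ : ∃ q r, r < 4 ∧ k = 4 * q + r :=
    ⟨k / 4, k % 4, Nat.mod_lt _ (by norm_num), by omega⟩
  rw [show (4 * q + r) % 4 = r by omega, PP_eq hm q r hr]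
  interval_cases r
  · rw [if_neg (by norm_num), show 4 * q + 0 + 1 = 4 * q + 1 by ring, PP_eq hm q 1 (by norm_num)]
    have h1 : pos ω 1 (tm hm q) - pos ω 0 (tm hm q) =
        tv ω (zz ω) (false, true) (tm hm q) - tv ω (zz ω) (false, false) (tm hm q) := by
      simp only [pos]
      abel
    rw [h1]
    exact pb_dv hω (zz ω) zz_or (by decide) _ _
  · rw [if_neg (by norm_num), show 4 * q + 1 + 1 = 4 * q + 2 by ring, PP_eq hm q 2 (by norm_num)]
    have h1 : pos ω 2 (tm hm q) - pos ω 1 (tm hm q) =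
        tw ω (zz ω) (true, false) (tm hm q) - tw ω (zz ω) (false, true) (tm hm q) := by
      simp only [pos]
      abel
    rw [h1]
    exact pb_dw hω (zz ω) zz_or (by decide) _ _
  · rw [if_neg (by norm_num), show 4 * q + 2 + 1 = 4 * q + 3 by ring, PP_eq hm q 3 (by norm_num)]
    have h1 : pos ω 3 (tm hm q) - pos ω 2 (tm hm q) =
        tu ω (zz ω) (false, true) (tm hm q) - tu ω (zz ω) (false, false) (tm hm q) := by
      simp only [pos]
      abel
    rw [h1]
    exact pb_du hω (zz ω) zz_or (by decide) _ _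
  · rw [if_pos rfl, show 4 * q + 3 + 1 = 4 * (q + 1) + 0 by ring,
      PP_eq hm (q + 1) 0 (by norm_num)]
    have h1 : pos ω 0 (tm hm (q + 1)) - pos ω 3 (tm hm q) =
        ((tu ω (zz ω) (false, false) (tm hm (q + 1)) - tu ω (zz ω) (false, true) (tm hm q)) +
        (tv ω (zz ω) (false, false) (tm hm (q + 1)) - tv ω (zz ω) (false, true) (tm hm q))) +
        (tw ω (zz ω) (false, true) (tm hm (q + 1)) - tw ω (zz ω) (true, false) (tm hm q)) := by
      simp only [pos]
      abel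
    rw [h1]
    have o1 : OP (isX ω) (tu ω (zz ω) (false, false) (tm hm (q + 1)) -
        tu ω (zz ω) (false, true) (tm hm q)) (δ₁ h) :=
      ⟨(oneWay_tu_z hω _ _).sub (oneWay_tu_z hω _ _), pb_du hω (zz ω) zz_or (by decide) _ _⟩
    have o2 : OP (isX ω) (tv ω (zz ω) (false, false) (tm hm (q + 1)) -
        tv ω (zz ω) (false, true) (tm hm q)) (δ₁ h) :=
      ⟨(oneWay_tv_z hω _ _).sub (oneWay_tv_z hω _ _), pb_dv hω (zz ω) zz_or (by decide) _ _⟩
    have o3 : OP (isX ω) (tw ω (zz ω) (false, true) (tm hm (q + 1)) -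
        tw ω (zz ω) (true, false) (tm hm q)) (δ₁ h) :=
      ⟨(oneWay_tw_z hω _ _).sub (oneWay_tw_z hω _ _), pb_dw hω (zz ω) zz_or (by decide) _ _⟩
    exact ((o1.add o2).add o3).pb.le (le_of_eq (by ring))

theorem pb_ser (hω : Function.Injective ω) (hm : 0 < m) (k : ℕ) :
    PB (1 + RR ω hm k) (if k % 4 = 0 ∨ k % 4 = 3 then 2 * (h : ℝ) ^ 3
      else (h : ℝ) ^ 3) := by
  obtain ⟨q, r, hr, rfl⟩ : ∃ q r, r < 4 ∧ k = 4 * q + r :=
    ⟨k / 4, k % 4, Nat.mod_lt _ (by norm_num), by omega⟩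
  rw [show (4 * q + r) % 4 = r by omega, RR_eq hm q r hr]
  interval_cases r
  · rw [if_pos (by norm_num)]
    simp only [ser]
    exact ((op_yz hω (false, true, false) (tm hm q)).add
      (op_yz hω (false, false, false) (tm hm q))).pb.le (le_of_eq (by ring))
  · rw [if_neg (by norm_num)]
    exact (op_yz hω _ _).pb
  · rw [if_neg (by norm_num)]
    exact (op_yz hω _ _).pb
  · rw [if_pos (by norm_num)]
    simp only [ser]
    exact ((op_yz hω (true, false, true) (tm hm q)).add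
      (op_yz hω (false, false, true) (tm hm q))).pb.le (le_of_eq (by ring))

theorem sum_four {M : Type} [AddCommMonoid M] (f : ℕ → M) (m : ℕ) :
    ∑ k ∈ Finset.range (4 * m), f k = ∑ q ∈ Finset.range m,
      (f (4 * q) + f (4 * q + 1) + f (4 * q + 2) + f (4 * q + 3)) := by
  induction m with
  | zero => simp
  | succ m ih =>
    rw [show 4 * (m + 1) = 4 * m + 1 + 1 + 1 + 1 by ring, Finset.sum_range_succ,
      Finset.sum_range_succ, Finset.sum_range_succ, Finset.sum_range_succ, ih,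
      Finset.sum_range_succ]
    simp only [add_assoc]

theorem pb_first (hω : Function.Injective ω) (hm : 0 < m) :
    PB (1 + PP ω hm 0) (3 * (h : ℝ) ^ 3) := by
  have h0 := PP_eq (ω := ω) hm 0 0 (by norm_num)
  rw [show 4 * 0 + 0 = 0 by norm_num] at h0
  rw [h0]
  simp only [pos]
  have o1 : OP (isX ω) (tu ω (zz ω) (false, false) (tm hm 0)) ((h : ℝ) ^ 3) :=
    ⟨oneWay_tu_z hω _ _, pb_plain _ _ fun k k' hk => by cases hω hk⟩
  have o2 : OP (isX ω) (tv ω (zz ω) (false, false) (tm hm 0)) ((h : ℝ) ^ 3) :=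
    ⟨oneWay_tv_z hω _ _, pb_plain _ _ fun k k' hk => by cases hω hk⟩
  have o3 : OP (isX ω) (tw ω (zz ω) (false, true) (tm hm 0)) ((h : ℝ) ^ 3) :=
    ⟨oneWay_tw_z hω _ _, pb_plain _ _ fun k k' hk => by cases hω hk⟩
  exact ((o1.add o2).add o3).pb.le (le_of_eq (by ring))

/-- The end of the walk. -/
theorem pb_last (hω : Function.Injective ω) (d : Fin m) :
    PB (1 - pos ω 3 d) (3 * (h : ℝ) ^ 3) := by
  simp only [pos]
  have o1 : OP (isX ω) (-tu ω (zz ω) (false, true) d) ((h : ℝ) ^ 3) :=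
    ⟨(oneWay_tu_z hω _ _).neg, by
      rw [← sub_eq_add_neg]
      exact pb_plain_sub _ _ fun k k' hk => by cases hω hk⟩
  have o2 : OP (isX ω) (-tv ω (zz ω) (false, true) d) ((h : ℝ) ^ 3) :=
    ⟨(oneWay_tv_z hω _ _).neg, by
      rw [← sub_eq_add_neg]
      exact pb_plain_sub _ _ fun k k' hk => by cases hω hk⟩
  have o3 : OP (isX ω) (-tw ω (zz ω) (true, false) d) ((h : ℝ) ^ 3) :=
    ⟨(oneWay_tw_z hω _ _).neg, by
      rw [← sub_eq_add_neg]
      exact pb_plain_sub _ _ fun k k' hk => by cases hω hk⟩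
  have e : (1 : Matrix V V ℤ) - (tu ω (zz ω) (false, true) d + tv ω (zz ω) (false, true) d +
      tw ω (zz ω) (true, false) d) = 1 + (-tu ω (zz ω) (false, true) d +
      -tv ω (zz ω) (false, true) d + -tw ω (zz ω) (true, false) d) := by abel
  rw [e]
  exact ((o1.add o2).add o3).pb.le (le_of_eq (by ring))

end prog

end Vale.Agent.P338.R2.H651.PI
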