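import Vale.Agent.P338.R2.H651.PI.L4

/-!
# The length of the program for the four family map
-/

namespace Vale.Agent.P338.R2.H651.PI

set_option linter.unusedSectionVars false

open Matrix

section total

variable {V : Type} [Fintype V] [DecidableEq V] {h m : ℕ}
  {ω : Wr (Fin h × Bool) (Fin m) → V}

/-- The walker part, at time `d`. -/
def wk (ω : Wr (Fin h × Bool) (Fin m) → V) (d : Fin m) : Matrix V V ℤ :=
  (ser ω 0 d + ser ω 0 d * pos ω 0 d) + (ser ω 1 d + ser ω 1 d * pos ω 1 d) +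
    (ser ω 2 d + ser ω 2 d * pos ω 2 d) + (ser ω 3 d + ser ω 3 d * pos ω 3 d)

theorem pb_wk (hω : Function.Injective ω) (hm : 0 < m) :
    PB (1 + ∑ d : Fin m, wk ω d)
      (6 * (h : ℝ) ^ 3 + m * (6 * δ₁ h + 6 * (h : ℝ) ^ 3)) := by
  have h1 := walk (PP ω hm) (RR ω hm) (fun i j => (oneWay_pos hω _ _).mul (oneWay_pos hω _ _))
    (fun i j => (oneWay_ser hω _ _).mul (oneWay_ser hω _ _)) (fun i j => pos_mul_ser hω _ _ _ _)
    _ _ _ (pb_first hω hm) (pb_step hω hm) (pb_ser hω hm) (4 * m - 1)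
    (3 * (h : ℝ) ^ 3) (by
      rw [show 4 * m - 1 = 4 * (m - 1) + 3 by omega, PP_eq hm _ 3 (by norm_num)]
      exact pb_last hω _)
  rw [show 4 * m - 1 + 1 = 4 * m by omega, sum_four, sum_four] at h1
  have h2 : ∑ q ∈ Finset.range m, ((RR ω hm (4 * q) + RR ω hm (4 * q) * PP ω hm (4 * q)) +
      (RR ω hm (4 * q + 1) + RR ω hm (4 * q + 1) * PP ω hm (4 * q + 1)) +
      (RR ω hm (4 * q + 2) + RR ω hm (4 * q + 2) * PP ω hm (4 * q + 2)) +
      (RR ω hm (4 * q + 3) + RR ω hm (4 * q + 3) * PP ω hm (4 * q + 3))) =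
      ∑ d : Fin m, wk ω d := by
    rw [Finset.sum_range]
    refine Finset.sum_congr rfl fun d _ => ?_
    have e0 : RR ω hm (4 * (d : ℕ)) = ser ω 0 d := by
      have := RR_eq (ω := ω) hm d 0 (by norm_num)
      rwa [add_zero, tm_of_lt] at this
    have e0' : PP ω hm (4 * (d : ℕ)) = pos ω 0 d := by
      have := PP_eq (ω := ω) hm d 0 (by norm_num)
      rwa [add_zero, tm_of_lt] at this
    rw [e0, e0', RR_eq hm _ 1 (by norm_num), RR_eq hm _ 2 (by norm_num),
      RR_eq hm _ 3 (by norm_num), PP_eq hm _ 1 (by norm_num), PP_eq hm _ 2 (by norm_num),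
      PP_eq hm _ 3 (by norm_num), tm_of_lt]
    rfl
  rw [h2] at h1
  refine h1.le ?_
  have h3 : ∑ k ∈ Finset.range (4 * m - 1), (if k % 4 = 3 then 3 * δ₁ h else δ₁ h) ≤
      m * (6 * δ₁ h) := by
    have h4 : ∑ k ∈ Finset.range (4 * m - 1), (if k % 4 = 3 then 3 * δ₁ h else δ₁ h) ≤
        ∑ k ∈ Finset.range (4 * m), (if k % 4 = 3 then 3 * δ₁ h else δ₁ h) := by
      refine Finset.sum_le_sum_of_subset_of_nonneg ?_ fun k _ _ => ?_
      · intro k hk
        rw [Finset.mem_range] at hk ⊢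
        omega
      · have := δ₁_nonneg h
        split_ifs <;> linarith
    refine h4.trans (le_of_eq ?_)
    rw [sum_four]
    have h5 : ∀ q ∈ Finset.range m, ((if (4 * q) % 4 = 3 then 3 * δ₁ h else δ₁ h) +
        (if (4 * q + 1) % 4 = 3 then 3 * δ₁ h else δ₁ h) +
        (if (4 * q + 2) % 4 = 3 then 3 * δ₁ h else δ₁ h) +
        (if (4 * q + 3) % 4 = 3 then 3 * δ₁ h else δ₁ h)) = 6 * δ₁ h := by
      intro q _
      rw [if_neg (by omega), if_neg (by omega), if_neg (by omega), if_pos (by omega)]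
      ring
    rw [Finset.sum_congr rfl h5, Finset.sum_const, Finset.card_range, nsmul_eq_mul]
  have h6 : ∑ q ∈ Finset.range m, ((if (4 * q) % 4 = 0 ∨ (4 * q) % 4 = 3 then
        2 * (h : ℝ) ^ 3 else (h : ℝ) ^ 3) +
      (if (4 * q + 1) % 4 = 0 ∨ (4 * q + 1) % 4 = 3 then
        2 * (h : ℝ) ^ 3 else (h : ℝ) ^ 3) +
      (if (4 * q + 2) % 4 = 0 ∨ (4 * q + 2) % 4 = 3 then
        2 * (h : ℝ) ^ 3 else (h : ℝ) ^ 3) +
      (if (4 * q + 3) % 4 = 0 ∨ (4 * q + 3) % 4 = 3 then
        2 * (h : ℝ) ^ 3 else (h : ℝ) ^ 3)) =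
      m * (6 * (h : ℝ) ^ 3) := by
    have h5 : ∀ q ∈ Finset.range m, ((if (4 * q) % 4 = 0 ∨ (4 * q) % 4 = 3 then
        2 * (h : ℝ) ^ 3 else (h : ℝ) ^ 3) +
      (if (4 * q + 1) % 4 = 0 ∨ (4 * q + 1) % 4 = 3 then
        2 * (h : ℝ) ^ 3 else (h : ℝ) ^ 3) +
      (if (4 * q + 2) % 4 = 0 ∨ (4 * q + 2) % 4 = 3 then
        2 * (h : ℝ) ^ 3 else (h : ℝ) ^ 3) +
      (if (4 * q + 3) % 4 = 0 ∨ (4 * q + 3) % 4 = 3 then
        2 * (h : ℝ) ^ 3 else (h : ℝ) ^ 3)) = 6 * (h : ℝ) ^ 3 := by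
      intro q _
      rw [if_pos (by omega), if_neg (by omega), if_neg (by omega), if_pos (by omega)]
      ring
    rw [Finset.sum_congr rfl h5, Finset.sum_const, Finset.card_range, nsmul_eq_mul]
  rw [h6]
  have e : (m : ℝ) * (6 * δ₁ h + 6 * (h : ℝ) ^ 3) =
      m * (6 * δ₁ h) + m * (6 * (h : ℝ) ^ 3) := by ring
  rw [e]
  linarith

/-- The remaining differences. -/
def df (ω : Wr (Fin h × Bool) (Fin m) → V) (d : Fin m) : Matrix V V ℤ :=
  (tu ω (y₃ ω (false, true, false) d) (true, false) d -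
      tu ω (y₃ ω (false, true, false) d) (false, false) d) +
  (tw ω (y₃ ω (false, false, false) d) (false, false) d -
      tw ω (y₃ ω (false, false, false) d) (false, true) d) +
  (tu ω (y₃ ω (false, true, true) d) (true, true) d -
      tu ω (y₃ ω (false, true, true) d) (false, false) d) +
  (tv ω (y₃ ω (true, false, false) d) (true, false) d -
      tv ω (y₃ ω (true, false, false) d) (false, true) d) +
  (tv ω (y₃ ω (true, false, true) d) (true, true) d -
      tv ω (y₃ ω (true, false, true) d) (false, true) d) +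
  (tw ω (y₃ ω (false, false, true) d) (false, false) d -
      tw ω (y₃ ω (false, false, true) d) (true, false) d)

theorem oneWay_tu_y (hω : Function.Injective ω) (i : Bool × Bool × Bool) (j : Bool × Bool)
    (d e : Fin m) : OneWay (isY ω) (tu ω (y₃ ω i d) j e) :=
  OneWay.tr (y₃_isY i d) fun _ => u₂_not_isY hω _ _ _

theorem oneWay_tv_y (hω : Function.Injective ω) (i : Bool × Bool × Bool) (j : Bool × Bool)
    (d e : Fin m) : OneWay (isY ω) (tv ω (y₃ ω i d) j e) :=
  OneWay.tr (y₃_isY i d) fun _ => v₂_not_isY hω _ _ _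

theorem oneWay_tw_y (hω : Function.Injective ω) (i : Bool × Bool × Bool) (j : Bool × Bool)
    (d e : Fin m) : OneWay (isY ω) (tw ω (y₃ ω i d) j e) :=
  OneWay.tr (y₃_isY i d) fun _ => w₂_not_isY hω _ _ _

theorem oneWay_tx_y (hω : Function.Injective ω) (i j : Bool × Bool × Bool)
    (d : Fin m) : OneWay (isY ω) (tr (y₃ ω i d) (x₃ ω j)) :=
  OneWay.tr (y₃_isY i d) fun _ => x₃_not_isY hω _ _

theorem op_du (hω : Function.Injective ω) (i : Bool × Bool × Bool) {j j' : Bool × Bool}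
    (hj : j ≠ j') (d : Fin m) :
    OP (isY ω) (tu ω (y₃ ω i d) j d - tu ω (y₃ ω i d) j' d) (δ₁ h) :=
  ⟨(oneWay_tu_y hω _ _ _ _).sub (oneWay_tu_y hω _ _ _ _), pb_du hω _ (y_or _ _) hj _ _⟩

theorem op_dv (hω : Function.Injective ω) (i : Bool × Bool × Bool) {j j' : Bool × Bool}
    (hj : j ≠ j') (d : Fin m) :
    OP (isY ω) (tv ω (y₃ ω i d) j d - tv ω (y₃ ω i d) j' d) (δ₁ h) :=
  ⟨(oneWay_tv_y hω _ _ _ _).sub (oneWay_tv_y hω _ _ _ _), pb_dv hω _ (y_or _ _) hj _ _⟩

theorem op_dw (hω : Function.Injective ω) (i : Bool × Bool × Bool) {j j' : Bool × Bool}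
    (hj : j ≠ j') (d : Fin m) :
    OP (isY ω) (tw ω (y₃ ω i d) j d - tw ω (y₃ ω i d) j' d) (δ₁ h) :=
  ⟨(oneWay_tw_y hω _ _ _ _).sub (oneWay_tw_y hω _ _ _ _), pb_dw hω _ (y_or _ _) hj _ _⟩

theorem op_df (hω : Function.Injective ω) (d : Fin m) : OP (isY ω) (df ω d) (6 * δ₁ h) := by
  have c1 := op_du hω (false, true, false)
    (show ((true, false) : Bool × Bool) ≠ (false, false) by decide) d
  have c2 := op_dw hω (false, false, false)
    (show ((false, false) : Bool × Bool) ≠ (false, true) by decide) d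
  have c3 := op_du hω (false, true, true)
    (show ((true, true) : Bool × Bool) ≠ (false, false) by decide) d
  have c4 := op_dv hω (true, false, false)
    (show ((true, false) : Bool × Bool) ≠ (false, true) by decide) d
  have c5 := op_dv hω (true, false, true)
    (show ((true, true) : Bool × Bool) ≠ (false, true) by decide) d
  have c6 := op_dw hω (false, false, true)
    (show ((false, false) : Bool × Bool) ≠ (true, false) by decide) d
  unfold df
  exact (((((c1.add c2).add c3).add c4).add c5).add c6).le (le_of_eq (by ring))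

/-- The static differences. -/
def sd (ω : Wr (Fin h × Bool) (Fin m) → V) (i : Bool × Bool × Bool) : Matrix V V ℤ :=
  ∑ d : Fin m, (tr (y₃ ω i d) (x₃ ω i) - yz ω i d)

theorem op_sd (hω : Function.Injective ω) {i : Bool × Bool × Bool}
    (hi : i ≠ (false, false, false)) :
    OP (isY ω) (sd ω i) ((m + 2) * (h : ℝ) ^ 3) := by
  refine ⟨OneWay.sum _ _ fun _ => (oneWay_tx_y hω _ _ _).sub (oneWay_yz hω _ _), ?_⟩
  have h1 := PB.diff (fun p : T h × Fin m => y₃ ω i p.2 p.1) (x₃ ω i) (zz ω)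
    (fun p : T h × Fin m => p.1) (x₃_inj hω i) (fun k k' hk => by cases hω hk)
    (fun k k' hk => by cases hω hk) (x₃_ne hω hi)
  have h2 : tr (fun p : T h × Fin m => y₃ ω i p.2 p.1) (fun p => x₃ ω i p.1) -
      tr (fun p : T h × Fin m => y₃ ω i p.2 p.1) (fun p => zz ω p.1) = sd ω i := by
    unfold sd tr yz
    rw [Finset.sum_sub_distrib, Fintype.sum_prod_type_right, Fintype.sum_prod_type_right]
    rfl
  rw [h2] at h1
  refine h1.le (le_of_eq ?_)
  simp only [Fintype.card_prod, Fintype.card_fin]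
  push_cast
  ring

/-- All additions to `y_i`. -/
def full (ω : Wr (Fin h × Bool) (Fin m) → V) (i : Bool × Bool × Bool) (d : Fin m) :
    Matrix V V ℤ :=
  tu ω (y₃ ω i d) (i.2.1, i.2.2) d + tv ω (y₃ ω i d) (i.1, i.2.2) d +
    tw ω (y₃ ω i d) (i.1, i.2.1) d + tr (y₃ ω i d) (x₃ ω i)

theorem op_full (hω : Function.Injective ω) (i : Bool × Bool × Bool) (d : Fin m) :
    OP (isY ω) (full ω i d) (4 * (h : ℝ) ^ 3) := by
  have o1 : OP (isY ω) (tu ω (y₃ ω i d) (i.2.1, i.2.2) d) ((h : ℝ) ^ 3) :=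
    ⟨oneWay_tu_y hω _ _ _ _, pb_plain _ _ fun k k' hk => by cases hω hk⟩
  have o2 : OP (isY ω) (tv ω (y₃ ω i d) (i.1, i.2.2) d) ((h : ℝ) ^ 3) :=
    ⟨oneWay_tv_y hω _ _ _ _, pb_plain _ _ fun k k' hk => by cases hω hk⟩
  have o3 : OP (isY ω) (tw ω (y₃ ω i d) (i.1, i.2.1) d) ((h : ℝ) ^ 3) :=
    ⟨oneWay_tw_y hω _ _ _ _, pb_plain _ _ fun k k' hk => by cases hω hk⟩
  have o4 : OP (isY ω) (tr (y₃ ω i d) (x₃ ω i)) ((h : ℝ) ^ 3) :=
    ⟨oneWay_tx_y hω _ _ _, pb_plain _ _ fun k k' hk => by cases hω hk⟩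
  exact (((o1.add o2).add o3).add o4).le (le_of_eq (by ring))

theorem oneWay_wk (hω : Function.Injective ω) (d : Fin m) : OneWay (isY ω) (wk ω d) := by
  have h1 : ∀ (i : Bool × Bool × Bool) (r : ℕ), OneWay (isY ω) (yz ω i d * pos ω r d) := by
    intro i r
    rcases r with _ | _ | _ | r <;>
      (simp only [pos]
       rw [mul_add, mul_add, yz_mul_tu hω, yz_mul_tv hω, yz_mul_tw hω]
       exact ((oneWay_tu_y hω _ _ _ _).add (oneWay_tv_y hω _ _ _ _)).add
         (oneWay_tw_y hω _ _ _ _))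
  have h2 : ∀ r : ℕ, OneWay (isY ω) (ser ω r d * pos ω r d) := by
    intro r
    rcases r with _ | _ | _ | r
    · simp only [ser]; rw [add_mul]; exact (h1 _ _).add (h1 _ _)
    · exact h1 _ _
    · exact h1 _ _
    · simp only [ser]; rw [add_mul]; exact (h1 _ _).add (h1 _ _)
  exact (((((oneWay_ser hω 0 d).add (h2 0)).add ((oneWay_ser hω 1 d).add (h2 1))).add
    ((oneWay_ser hω 2 d).add (h2 2))).add ((oneWay_ser hω 3 d).add (h2 3)))

/-- The whole map. -/
def tot (ω : Wr (Fin h × Bool) (Fin m) → V) : Matrix V V ℤ :=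
  ∑ d : Fin m, ∑ i : Bool × Bool × Bool, full ω i d

theorem tot_eq (hω : Function.Injective ω) : tot ω =
    ∑ d : Fin m, wk ω d + ∑ d : Fin m, df ω d +
      (sd ω (false, true, false) + sd ω (false, true, true) + sd ω (true, false, false) +
        sd ω (true, false, true) + sd ω (false, false, true)) +
      (∑ d : Fin m, full ω (true, true, false) d + ∑ d : Fin m, full ω (true, true, true) d) := by
  unfold tot sd
  simp only [← Finset.sum_add_distrib]
  refine Finset.sum_congr rfl fun d _ => ?_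
  simp only [Fintype.sum_prod_type, Fintype.sum_bool, wk, ser, pos, mul_add, add_mul,
    yz_mul_tu hω, yz_mul_tv hω, yz_mul_tw hω, df, full]
  have e : tr (y₃ ω (false, false, false) d) (x₃ ω (false, false, false)) =
      yz ω (false, false, false) d := rfl
  rw [e]
  abel

/-- The saving. -/
theorem pb_tot (hω : Function.Injective ω) (hm : 0 < m) :
    PB (1 + tot ω) ((31 * (h : ℝ) ^ 3 + 24 * (h : ℝ) ^ 2) * m + 16 * (h : ℝ) ^ 3) := by
  rw [tot_eq hω]
  have o1 : OP (isY ω) (∑ d : Fin m, wk ω d)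
      (6 * (h : ℝ) ^ 3 + m * (6 * δ₁ h + 6 * (h : ℝ) ^ 3)) :=
    ⟨OneWay.sum _ _ fun d => oneWay_wk hω d, pb_wk hω hm⟩
  have o2 := OP.sum Finset.univ (df ω) (op_df hω)
  have o3 := op_sd hω (i := (false, true, false)) (by decide)
  have o4 := op_sd hω (i := (false, true, true)) (by decide)
  have o5 := op_sd hω (i := (true, false, false)) (by decide)
  have o6 := op_sd hω (i := (true, false, true)) (by decide)
  have o7 := op_sd hω (i := (false, false, true)) (by decide)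
  have o8 := OP.sum Finset.univ (full ω (true, true, false)) (op_full hω _)
  have o9 := OP.sum Finset.univ (full ω (true, true, true)) (op_full hω _)
  have a1 := ((o1.add o2).add ((((o3.add o4).add o5).add o6).add o7)).add (o8.add o9)
  refine a1.pb.le (le_of_eq ?_)
  rw [Finset.card_univ, Fintype.card_fin]
  unfold δ₁
  ring

end total

end Vale.Agent.P338.R2.H651.PI
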