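import Vale.Agent.P338.R2.H651.PI.Zeta

/-!
# Short integral programs for the zeta transform
-/

namespace Vale.Agent.P338.R2.H651.PI

set_option linter.unusedSectionVars false

open Matrix

theorem pb_E : PB E 1 := by
  have := PB.slide (⟨false, true, by decide, 1⟩ : Sl Bool)
  rw [E_eq]
  exact this

theorem pb_Star (n : ℕ) : PB (Star n) n := by
  have h1 := PB.batch (Finset.univ : Finset (Fin n)) (fun i => (some i : Option (Fin n)))
    (fun _ => none) (fun _ => (1 : ℤ)) (fun _ _ => Or.inl rfl) (fun _ _ _ _ => by simp)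
  rw [Finset.card_univ, Fintype.card_fin] at h1
  convert h1 using 1
  ext i j
  rw [Matrix.add_apply, Matrix.sum_apply]
  simp only [Star, Matrix.of_apply, Matrix.single_apply, Matrix.one_apply]
  rcases i with _ | i
  · rcases j with _ | j
    · simp
    · simp
  · rcases j with _ | j
    · simp
    · simp

/-- The star, given the cost of `E`. -/
theorem CC.star {c : ℝ} (hc : 0 ≤ c) (hE : CC E c) (h : ℕ) (hh : 0 < h) :
    CC (Star (h * 2)) ((62 * (h : ℝ) ^ 4 + 64 * (h : ℝ) ^ 3 +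
      192 * (((h * 2 : ℕ) : ℝ) + 1) ^ 3) * c / (4 * (((h * 2 : ℕ) : ℝ) + 1) ^ 3)) := by
  set n := h * 2 with hn
  set P := 62 * (h : ℝ) ^ 4 + 64 * (h : ℝ) ^ 3 + 192 * ((n : ℝ) + 1) ^ 3 with hP
  have h1 : PB (tpow (Star n) 4) P := pb_star4 (pb_L4 h hh)
  have h2 : CC (tpow (Star n) 4) (P * c) := CC.word hE hc h1
  unfold CC at h2
  have hP0 : 0 ≤ P := by positivity
  have h3 := Sp.root (pb_Star n) (show 0 < 4 by norm_num) (by positivity) h2
  unfold CC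
  refine h3.le (le_of_eq ?_)
  simp only [Fintype.card_pi, Finset.prod_const, Finset.card_univ, Fintype.card_fin,
    Fintype.card_option]
  push_cast
  field_simp

/-- One step of the improvement. -/
theorem CC.step {c : ℝ} (hc : 0 ≤ c) (hE : CC E c) {n : ℕ} (hn : 0 < n) {θ : ℝ} (hθ : 0 ≤ θ)
    (hS : CC (Star n) (θ * c)) :
    CC E ((1 - (n - θ) / (n * 2 ^ (n - 1))) * c) := by
  have hn' : (0 : ℝ) < n := by exact_mod_cast hn
  have h1 := ((CC.word hE hc (pb_Qm n)).mul hS.Sm).mul (CC.word hE hc (pb_Pm n))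
  rw [← Zm_eq] at h1
  have h2 := (eqv_Zm n).symm.cc h1
  unfold CC at h2
  have hpow : (2 : ℝ) ^ n = 2 * 2 ^ (n - 1) := by
    rw [← pow_succ', Nat.sub_add_cancel hn]
  have h2n : (n : ℝ) ≤ n * 2 ^ (n - 1) := by
    have : (1 : ℝ) ≤ 2 ^ (n - 1) := one_le_pow₀ (by norm_num)
    nlinarith
  have h0 : 0 ≤ ((n : ℝ) * 2 ^ (n - 1) - 2 ^ n + 1) * c + θ * c + ((2 : ℝ) ^ n - 1 - n) * c := by
    have e : ((n : ℝ) * 2 ^ (n - 1) - 2 ^ n + 1) * c + θ * c + ((2 : ℝ) ^ n - 1 - n) * c =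
      (((n : ℝ) * 2 ^ (n - 1) - n) + θ) * c := by ring
    rw [e]
    have : 0 ≤ (n : ℝ) * 2 ^ (n - 1) - n := by linarith
    positivity
  have h3 := Sp.root pb_E hn (div_nonneg h0 (Nat.cast_nonneg _)) h2
  unfold CC
  refine h3.le (le_of_eq ?_)
  simp only [Fintype.card_pi, Finset.prod_const, Finset.card_univ, Fintype.card_fin,
    Fintype.card_bool]
  push_cast
  rw [hpow]
  have h4 : (2 : ℝ) ^ (n - 1) ≠ 0 := by positivity
  field_simp
  ring

/-- A fixed factor is gained. -/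
theorem exists_gain : ∃ ρ : ℝ, 0 ≤ ρ ∧ ρ < 1 ∧ ∀ c : ℝ, 0 ≤ c → CC E c → CC E (ρ * c) := by
  -- the size
  obtain ⟨h, hh⟩ : ∃ h : ℕ, h = 10000 := ⟨_, rfl⟩
  have h0 : 0 < h := by omega
  obtain ⟨n, hn⟩ : ∃ n : ℕ, n = h * 2 := ⟨_, rfl⟩
  have hn0 : 0 < n := by omega
  have hn' : (0 : ℝ) < n := by exact_mod_cast hn0
  have hhR : (h : ℝ) = 10000 := by rw [hh]; norm_num
  have hnR : (n : ℝ) = 20000 := by rw [hn]; push_cast; rw [hhR]; norm_num
  set θ : ℝ := (62 * (h : ℝ) ^ 4 + 64 * (h : ℝ) ^ 3 + 192 * ((n : ℝ) + 1) ^ 3) /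
    (4 * ((n : ℝ) + 1) ^ 3) with hθ
  have hθ0 : 0 ≤ θ := by positivity
  have hθn : θ < n := by
    rw [hθ, div_lt_iff₀ (by positivity), hhR, hnR]
    norm_num
  have hp : (0 : ℝ) < (n : ℝ) * 2 ^ (n - 1) := by positivity
  have h2n : (n : ℝ) ≤ n * 2 ^ (n - 1) := by
    have : (1 : ℝ) ≤ 2 ^ (n - 1) := one_le_pow₀ (by norm_num)
    nlinarith
  refine ⟨1 - (n - θ) / (n * 2 ^ (n - 1)), ?_, ?_, ?_⟩
  · have h3 : (n - θ) / ((n : ℝ) * 2 ^ (n - 1)) ≤ 1 := by
      rw [div_le_one hp]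
      linarith
    linarith
  · have h3 : 0 < (n - θ) / ((n : ℝ) * 2 ^ (n - 1)) := div_pos (by linarith) hp
    linarith
  · intro c hc hE
    have h5 := CC.star hc hE h h0
    rw [← hn] at h5
    refine CC.step hc hE hn0 hθ0 (h5.le (le_of_eq ?_))
    rw [hθ]
    ring

/-- The cost of `E` is zero. -/
theorem sp_E_zero : Sp E 0 := by
  obtain ⟨ρ, h0, h1, hρ⟩ := exists_gain
  have hE : CC E 2 := by
    have := Sp.of_pb pb_E
    unfold CC
    refine this.le ?_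
    rw [Fintype.card_bool]
    norm_num
  have key : ∀ k : ℕ, CC E (ρ ^ k * 2) := by
    intro k
    induction k with
    | zero => simpa using hE
    | succ k ih =>
      have := hρ _ (by positivity) ih
      rwa [← mul_assoc, ← pow_succ'] at this
  intro δ hδ
  obtain ⟨k, hk⟩ := exists_pow_lt_of_lt_one (show 0 < δ / 2 by positivity) h1
  have h2 := key k
  unfold CC at h2
  obtain ⟨b, hb, h3⟩ := h2 (δ / 2) (by positivity)
  refine ⟨b, hb, h3.le ?_ le_rfl⟩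
  rw [Fintype.card_bool]
  push_cast
  linarith

/-- Short programs for the tensor powers of `E`. -/
theorem exists_short (ε : ℝ) (hε : 0 < ε) :
    ∃ m₀ : ℕ, ∀ m : ℕ, m₀ ≤ m → PB (tpow E m) (ε * m * 2 ^ (m - 1)) := by
  obtain ⟨b, hb, h⟩ := sp_E_zero (ε / 4) (by positivity)
  obtain ⟨N, hN⟩ := exists_nat_gt (4 * b / ε)
  refine ⟨N + 1, fun m hm => (h m).le ?_⟩
  have hm' : (N : ℝ) + 1 ≤ m := by exact_mod_cast hm
  rw [div_lt_iff₀ hε] at hN
  have h1 : 4 * b ≤ m * ε := by nlinarith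
  rw [Fintype.card_bool]
  have hpow : (((2 : ℕ) : ℝ)) ^ m = 2 * 2 ^ (m - 1) := by
    push_cast
    rw [← pow_succ', Nat.sub_add_cancel (by omega)]
  rw [hpow]
  have h2 : (0 : ℝ) < 2 ^ (m - 1) := by positivity
  have h3 : 2 * ((0 + ε / 4) * m + b) ≤ ε * m := by linarith
  calc 2 * (2 : ℝ) ^ (m - 1) * ((0 + ε / 4) * m + b)
      = (2 * ((0 + ε / 4) * m + b)) * 2 ^ (m - 1) := by ring
    _ ≤ (ε * m) * 2 ^ (m - 1) := mul_le_mul_of_nonneg_right h3 h2.le

end Vale.Agent.P338.R2.H651.PI
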