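import Vale.Agent.P338.R2.H651.PI.Base

/-!
# Asymptotic slide counts of tensor powers
-/

namespace Vale.Agent.P338.R2.H651.PI

set_option linter.unusedSectionVars false

open Matrix

section basic

variable {ι κ : Type} [Fintype ι] [DecidableEq ι] [Fintype κ] [DecidableEq κ]

/-- Programs for the tensor powers with `x K + b` slides per point. -/
def Rt (A : Matrix ι ι ℤ) (x b : ℝ) : Prop :=
  ∀ K : ℕ, PB (tpow A K) ((Fintype.card ι : ℝ) ^ K * (x * K + b))

/-- Asymptotically at most `x` slides per point and factor. -/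
def Sp (A : Matrix ι ι ℤ) (x : ℝ) : Prop := ∀ δ : ℝ, 0 < δ → ∃ b : ℝ, 0 ≤ b ∧ Rt A (x + δ) b

/-- Asymptotically at most `x K |ι|^(K-1)` slides. -/
def CC (A : Matrix ι ι ℤ) (x : ℝ) : Prop := Sp A (x / Fintype.card ι)

theorem Rt.le {A : Matrix ι ι ℤ} {x b x' b' : ℝ} (h : Rt A x b) (hx : x ≤ x') (hb : b ≤ b') :
    Rt A x' b' := fun K => (h K).le (mul_le_mul_of_nonneg_left
      (add_le_add (mul_le_mul_of_nonneg_right hx (Nat.cast_nonneg _)) hb) (by positivity))

theorem Sp.le {A : Matrix ι ι ℤ} {x x' : ℝ} (h : Sp A x) (hx : x ≤ x') : Sp A x' := by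
  intro δ hδ
  obtain ⟨b, hb, h1⟩ := h δ hδ
  exact ⟨b, hb, h1.le (by linarith) le_rfl⟩

theorem CC.le {A : Matrix ι ι ℤ} {x x' : ℝ} (h : CC A x) (hx : x ≤ x') : CC A x' :=
  Sp.le h (div_le_div_of_nonneg_right hx (Nat.cast_nonneg _))

theorem Sp.mul {A B : Matrix ι ι ℤ} {x y : ℝ} (hA : Sp A x) (hB : Sp B y) :
    Sp (A * B) (x + y) := by
  intro δ hδ
  obtain ⟨b, hb, h1⟩ := hA (δ / 2) (half_pos hδ)
  obtain ⟨b', hb', h2⟩ := hB (δ / 2) (half_pos hδ)
  refine ⟨b + b', add_nonneg hb hb', fun K => ?_⟩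
  rw [tpow_mul_tpow]
  exact ((h1 K).mul (h2 K)).le (le_of_eq (by ring))

theorem CC.mul {A B : Matrix ι ι ℤ} {x y : ℝ} (hA : CC A x) (hB : CC B y) :
    CC (A * B) (x + y) := by
  unfold CC
  rw [add_div]
  exact Sp.mul hA hB

theorem Sp.one : Sp (1 : Matrix ι ι ℤ) 0 := by
  intro δ hδ
  refine ⟨0, le_rfl, fun K => ?_⟩
  rw [tpow_one']
  exact PB.one.le (by positivity)

theorem CC.one : CC (1 : Matrix ι ι ℤ) 0 := by
  unfold CC
  rw [zero_div]
  exact Sp.one

theorem Eqv.rt {A : Matrix ι ι ℤ} {B : Matrix κ κ ℤ} (h : Eqv A B) {x b : ℝ} (hB : Rt B x b) :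
    Rt A x b := by
  intro K
  rw [h.card]
  exact (h.tpow K).pb (hB K)

theorem Eqv.sp {A : Matrix ι ι ℤ} {B : Matrix κ κ ℤ} (h : Eqv A B) {x : ℝ} (hB : Sp B x) :
    Sp A x := by
  intro δ hδ
  obtain ⟨b, hb, h1⟩ := hB δ hδ
  exact ⟨b, hb, h.rt h1⟩

theorem Eqv.cc {A : Matrix ι ι ℤ} {B : Matrix κ κ ℤ} (h : Eqv A B) {x : ℝ} (hB : CC B x) :
    CC A x := by
  unfold CC
  rw [h.card]
  exact h.sp hB

theorem Sp.inv {A B : Matrix ι ι ℤ} {x : ℝ} (hA : Sp A x) (h : A * B = 1) : Sp B x := by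
  intro δ hδ
  obtain ⟨b, hb, h1⟩ := hA δ hδ
  exact ⟨b, hb, fun K => (h1 K).inv (by rw [← tpow_mul_tpow, h, tpow_one'])⟩

theorem PB.tensor_mul {A : Matrix ι ι ℤ} {B : Matrix κ κ ℤ} {x y : ℝ} (hA : PB A x)
    (hB : PB B y) : PB (tensor A B) (Fintype.card κ * x + Fintype.card ι * y) := by
  have h1 : tensor A B = tensor A 1 * tensor 1 B := by
    rw [← PI.tensor_mul, Matrix.mul_one, Matrix.one_mul]
  rw [h1]
  exact (((Eqv.tensor_comm A (1 : Matrix κ κ ℤ)).pb (hA.tensor_one (κ := κ)))).mul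
    (hB.tensor_one (κ := ι))

theorem card_pos' [Nonempty ι] : (0 : ℝ) < Fintype.card ι := by exact_mod_cast Fintype.card_pos

theorem one_le_card [Nonempty ι] : (1 : ℝ) ≤ Fintype.card ι := by
  exact_mod_cast Nat.succ_le_of_lt Fintype.card_pos

/-- The obvious programs for tensor powers. -/
theorem PB.tpow [Nonempty ι] {A : Matrix ι ι ℤ} {c : ℝ} (h : PB A c) (K : ℕ) :
    PB (PI.tpow A K) ((Fintype.card ι : ℝ) ^ K * (c * K)) := by
  have hc := h.nonneg
  have hn := one_le_card (ι := ι)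
  induction K with
  | zero => exact (tpow_zero A).pb (PB.one.le (by simp))
  | succ K ih =>
    refine (tpow_succ A K).pb ((h.tensor_mul ih).le ?_)
    simp only [Fintype.card_pi, Finset.prod_const, Finset.card_univ, Fintype.card_fin]
    push_cast
    have h1 : (0 : ℝ) ≤ (Fintype.card ι : ℝ) ^ K := by positivity
    have h2 : (Fintype.card ι : ℝ) ^ K * c ≤ (Fintype.card ι : ℝ) ^ (K + 1) * c := by
      refine mul_le_mul_of_nonneg_right ?_ hc
      rw [pow_succ]
      nlinarith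
    calc (Fintype.card ι : ℝ) ^ K * c + Fintype.card ι * ((Fintype.card ι : ℝ) ^ K * (c * K))
        ≤ (Fintype.card ι : ℝ) ^ (K + 1) * c +
          Fintype.card ι * ((Fintype.card ι : ℝ) ^ K * (c * K)) := by linarith
      _ = (Fintype.card ι : ℝ) ^ (K + 1) * (c * (K + 1)) := by ring

/-- Every program gives some bound. -/
theorem Sp.of_pb [Nonempty ι] {A : Matrix ι ι ℤ} {c : ℝ} (h : PB A c) : Sp A c := by
  intro δ hδ
  refine ⟨0, le_rfl, fun K => (h.tpow K).le ?_⟩
  refine mul_le_mul_of_nonneg_left ?_ (by positivity)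
  have : (0 : ℝ) ≤ K := Nat.cast_nonneg K
  nlinarith

/-- Roots of tensor powers. -/
theorem Sp.root [Nonempty ι] {A : Matrix ι ι ℤ} {c y : ℝ} (hA : PB A c) {m : ℕ} (hm : 0 < m)
    (hy : 0 ≤ y) (h : Sp (tpow A m) y) : Sp A (y / m) := by
  intro δ hδ
  have hm' : (0 : ℝ) < m := by exact_mod_cast hm
  obtain ⟨b, hb, h1⟩ := h (m * δ) (by positivity)
  have hc := hA.nonneg
  refine ⟨b + c * m, by positivity, fun K => ?_⟩
  obtain ⟨q, r, hr, rfl⟩ : ∃ q r, r < m ∧ K = m * q + r :=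
    ⟨K / m, K % m, Nat.mod_lt _ hm, (Nat.div_add_mod K m).symm⟩
  have h2 : PB (tpow A (m * q)) (((Fintype.card ι : ℝ) ^ (m * q)) * ((y + m * δ) * q + b)) := by
    have h3 := (tpow_mul A m q).symm.pb (h1 q)
    simp only [Fintype.card_pi, Finset.prod_const, Finset.card_univ, Fintype.card_fin] at h3
    push_cast at h3
    rwa [← pow_mul] at h3
  have h4 := (tpow_add A (m * q) r).pb (h2.tensor_mul (hA.tpow r))
  refine h4.le ?_
  simp only [Fintype.card_pi, Finset.prod_const, Finset.card_univ, Fintype.card_fin]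
  push_cast
  have hn := card_pos' (ι := ι)
  have h5 : (r : ℝ) ≤ m := by exact_mod_cast hr.le
  have h6 : (Fintype.card ι : ℝ) ^ r * ((Fintype.card ι : ℝ) ^ (m * q) *
      ((y + m * δ) * q + b)) + (Fintype.card ι : ℝ) ^ (m * q) *
      ((Fintype.card ι : ℝ) ^ r * (c * r)) =
      (Fintype.card ι : ℝ) ^ (m * q + r) * ((y + m * δ) * q + b + c * r) := by
    rw [pow_add]
    ring
  rw [h6]
  refine mul_le_mul_of_nonneg_left ?_ (by positivity)
  have h7 : (y + m * δ) * q ≤ (y / m + δ) * (m * q + r) := by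
    have h8 : (y + m * δ) * q = (y / m + δ) * (m * q) := by
      field_simp
    rw [h8]
    refine mul_le_mul_of_nonneg_left ?_ (by positivity)
    have : (0 : ℝ) ≤ r := Nat.cast_nonneg r
    linarith
  have h9 : c * r ≤ c * m := mul_le_mul_of_nonneg_left h5 hc
  linarith

end basic

section sum

variable {ι κ : Type} [Fintype ι] [DecidableEq ι] [Fintype κ] [DecidableEq κ] [Nonempty ι]
  [Nonempty κ]

theorem eqv_tensor_sum {I J K : Type} {μ ν : Type} (P : Matrix I I ℤ) (Q : Matrix J J ℤ)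
    (A : Matrix μ μ ℤ) (B : Matrix ν ν ℤ) (T : Matrix K K ℤ) :
    Eqv (tensor (tensor P Q) (tensor (fromBlocks A 0 0 B) T))
      (fromBlocks (tensor (tensor (tensor A P) Q) T) 0 0
        (tensor (tensor P (tensor B Q)) T)) := by
  refine ⟨⟨fun p => match p with
      | ((i, j), (Sum.inl a, k)) => Sum.inl (((a, i), j), k)
      | ((i, j), (Sum.inr b, k)) => Sum.inr ((i, (b, j)), k),
    fun p => match p with
      | Sum.inl (((a, i), j), k) => ((i, j), (Sum.inl a, k))
      | Sum.inr ((i, (b, j)), k) => ((i, j), (Sum.inr b, k)), ?_, ?_⟩, ?_⟩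
  · rintro ⟨⟨i, j⟩, ⟨a | b, k⟩⟩ <;> rfl
  · rintro (⟨⟨⟨a, i⟩, j⟩, k⟩ | ⟨⟨i, ⟨b, j⟩⟩, k⟩) <;> rfl
  · ext ⟨⟨i, j⟩, ⟨a | b, k⟩⟩ ⟨⟨i', j'⟩, ⟨a' | b', k'⟩⟩
    · simp only [tensor_apply, fromBlocks_apply₁₁, Matrix.submatrix_apply, Equiv.coe_fn_mk]
      ring
    · simp
    · simp
    · simp only [tensor_apply, fromBlocks_apply₂₂, Matrix.submatrix_apply, Equiv.coe_fn_mk]
      ring

set_option synthInstance.maxSize 4096 in
theorem pb_sum_pow {A : Matrix ι ι ℤ} {B : Matrix κ κ ℤ} {x y b b' : ℝ} (hA : Rt A x b)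
    (hB : Rt B y b') (K : ℕ) : ∀ i j : ℕ,
      PB (tensor (tensor (tpow A i) (tpow B j)) (tpow (fromBlocks A 0 0 B) K))
      ((Fintype.card ι : ℝ) ^ i * (Fintype.card κ : ℝ) ^ j *
        ((Fintype.card ι : ℝ) + Fintype.card κ) ^ K *
        (x * (i + K * (Fintype.card ι / (Fintype.card ι + Fintype.card κ))) +
          y * (j + K * (Fintype.card κ / (Fintype.card ι + Fintype.card κ))) + (b + b'))) := by
  have hc := card_pos' (ι := ι)
  have hc' := card_pos' (ι := κ)
  induction K with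
  | zero =>
    intro i j
    have h1 := (hA i).tensor_mul (hB j)
    have h2 : Eqv (tensor (tensor (tpow A i) (tpow B j)) (tpow (fromBlocks A 0 0 B) 0))
        (tensor (tpow A i) (tpow B j)) :=
      ((Eqv.refl _).tensor (tpow_zero _)).trans (Eqv.tensor_unit _ _ (by simp))
    refine (h2.pb h1).le (le_of_eq ?_)
    simp only [Fintype.card_pi, Finset.prod_const, Finset.card_univ, Fintype.card_fin]
    push_cast
    ring
  | succ K ih =>
    intro i j
    have hs := ih (i + 1) j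
    have ht := ih i (j + 1)
    set T := tpow (fromBlocks A 0 0 B) K with hT
    have h1 : Eqv (tensor (tensor (tpow A i) (tpow B j)) (tpow (fromBlocks A 0 0 B) (K + 1)))
        (fromBlocks (tensor (tensor (tensor A (tpow A i)) (tpow B j)) T) 0 0
          (tensor (tensor (tpow A i) (tensor B (tpow B j))) T)) :=
      ((Eqv.refl _).tensor (tpow_succ _ K)).trans (eqv_tensor_sum _ _ _ _ _)
    have h2 := (((tpow_succ A i).symm.tensor (Eqv.refl (tpow B j))).tensor (Eqv.refl T)).pb hs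
    have h3 := (((Eqv.refl (tpow A i)).tensor (tpow_succ B j).symm).tensor (Eqv.refl T)).pb ht
    refine (h1.pb (h2.sum h3)).le (le_of_eq ?_)
    push_cast
    rw [pow_succ, pow_succ, pow_succ]
    have hn : (Fintype.card ι : ℝ) + Fintype.card κ ≠ 0 := by positivity
    field_simp
    ring

theorem Sp.sum {A : Matrix ι ι ℤ} {B : Matrix κ κ ℤ} {x y : ℝ} (hA : Sp A x) (hB : Sp B y) :
    Sp (fromBlocks A 0 0 B) ((Fintype.card ι * x + Fintype.card κ * y) /
        (Fintype.card ι + Fintype.card κ)) := by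
  intro δ hδ
  have hc := card_pos' (ι := ι)
  have hc' := card_pos' (ι := κ)
  have hn : (0 : ℝ) < (Fintype.card ι : ℝ) + Fintype.card κ := by positivity
  obtain ⟨b, hb, h1⟩ := hA δ hδ
  obtain ⟨b', hb', h2⟩ := hB δ hδ
  refine ⟨b + b', by positivity, fun K => ?_⟩
  have hs := pb_sum_pow h1 h2 K 0 0
  have h3 : Eqv (tpow (fromBlocks A 0 0 B) K)
      (tensor (tensor (tpow A 0) (tpow B 0)) (tpow (fromBlocks A 0 0 B) K)) := by
    have h4 := ((tpow_zero A).tensor (tpow_zero B)).tensor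
      (Eqv.refl (tpow (fromBlocks A 0 0 B) K))
    have h5 : Eqv (tensor (tensor (1 : Matrix Unit Unit ℤ) (1 : Matrix Unit Unit ℤ))
        (tpow (fromBlocks A 0 0 B) K)) (tpow (fromBlocks A 0 0 B) K) :=
      (Eqv.tensor_comm _ _).trans (((Eqv.refl _).tensor
        (Eqv.tensor_unit _ _ (by simp))).trans (Eqv.tensor_unit _ _ (by simp)))
    exact (h4.trans h5).symm
  refine (h3.pb hs).le (le_of_eq ?_)
  rw [Fintype.card_sum]
  push_cast
  field_simp
  ring

theorem CC.sum {A : Matrix ι ι ℤ} {B : Matrix κ κ ℤ} {x y : ℝ} (hA : CC A x) (hB : CC B y) :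
    CC (fromBlocks A 0 0 B) (x + y) := by
  have hc := card_pos' (ι := ι)
  have hc' := card_pos' (ι := κ)
  have h := Sp.sum hA hB
  unfold CC
  rw [Fintype.card_sum]
  push_cast
  convert h using 1
  field_simp

end sum

section one

variable {ι κ : Type} [Fintype ι] [DecidableEq ι] [Fintype κ] [DecidableEq κ] [Nonempty ι]

theorem eqv_sum_empty [IsEmpty κ] (A : Matrix ι ι ℤ) (B : Matrix κ κ ℤ) :
    Eqv (fromBlocks A 0 0 B) A := by
  refine ⟨Equiv.sumEmpty ι κ, ?_⟩
  ext (i | i) (j | j)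
  · simp
  · exact isEmptyElim j
  · exact isEmptyElim i
  · exact isEmptyElim i

theorem CC.sum_one {A : Matrix ι ι ℤ} {x : ℝ} (hA : CC A x) :
    CC (fromBlocks A 0 0 (1 : Matrix κ κ ℤ)) x := by
  rcases isEmpty_or_nonempty κ with h | h
  · exact (eqv_sum_empty A _).cc hA
  · have := hA.sum (CC.one (ι := κ))
    rwa [add_zero] at this

/-- A matrix that is the identity outside the image of `κ`. -/
theorem eqv_of_inj (A : Matrix ι ι ℤ) (g : κ → ι) (hg : Function.Injective g)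
    (h : ∀ x y, (x ∉ Set.range g ∨ y ∉ Set.range g) → A x y = (1 : Matrix ι ι ℤ) x y) :
    ∃ (β : Type) (_ : Fintype β) (_ : DecidableEq β),
      Eqv A (fromBlocks (A.submatrix g g) 0 0 (1 : Matrix β β ℤ)) := by
  classical
  refine ⟨((Set.range g)ᶜ : Set ι), inferInstance, inferInstance, Eqv.symm ?_⟩
  refine ⟨(Equiv.sumCongr (Equiv.ofInjective g hg) (Equiv.refl _)).trans
      (Equiv.Set.sumCompl (Set.range g)), ?_⟩
  ext (a | ⟨x, hx⟩) (b | ⟨y, hy⟩)
  · simp
  · have hne : g a ≠ y := fun h => hy ⟨a, h⟩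
    simp [h (g a) y (Or.inr hy), hne]
  · have hne : x ≠ g b := fun h => hx ⟨b, h.symm⟩
    simp [h x (g b) (Or.inl hx), hne]
  · simp [h x y (Or.inl hx), Matrix.one_apply]

theorem CC.of_inj [Nonempty κ] {A : Matrix ι ι ℤ} {g : κ → ι} (hg : Function.Injective g)
    (h : ∀ x y, (x ∉ Set.range g ∨ y ∉ Set.range g) → A x y = (1 : Matrix ι ι ℤ) x y)
    {x : ℝ} (hx : CC (A.submatrix g g) x) : CC A x := by
  obtain ⟨β, i1, i2, h1⟩ := eqv_of_inj A g hg h
  exact h1.cc hx.sum_one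

/-! ### Slides -/

theorem E_eq : E = 1 + Matrix.single false true (1 : ℤ) := by
  ext a b
  cases a <;> cases b <;> simp [show ¬ ((true : Bool) ≤ false) by decide]

theorem CC.E_neg {c : ℝ} (hE : CC E c) : CC (1 + Matrix.single false true (-1 : ℤ)) c := by
  refine Sp.inv hE ?_
  rw [E_eq]
  ext a b
  cases a <;> cases b <;> simp [Matrix.mul_apply, Matrix.one_apply, Matrix.single_apply]

theorem CC.slide {c : ℝ} (hE : CC E c) (s : Sl ι) : CC s.mat c := by
  let g : Bool → ι := fun b => if b then s.j else s.i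
  have hg : Function.Injective g := by
    intro a b hab
    cases a <;> cases b
    · rfl
    · exact absurd hab s.ne
    · exact absurd hab.symm s.ne
    · rfl
  refine CC.of_inj hg ?_ ?_
  · intro x y hxy
    unfold Sl.mat
    rw [Matrix.add_apply, Matrix.single_apply, if_neg, add_zero]
    rintro ⟨rfl, rfl⟩
    rcases hxy with h | h
    · exact h ⟨false, rfl⟩
    · exact h ⟨true, rfl⟩
  · have h1 : s.mat.submatrix g g = 1 + Matrix.single false true (s.c : ℤ) := by
      ext a b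
      have hne := s.ne
      have hne' := s.ne.symm
      cases a <;> cases b <;>
        simp [g, Sl.mat, hne, hne']
    rw [h1]
    rcases Int.units_eq_one_or s.c with h | h
    · rw [h]
      have := hE
      rw [E_eq] at this
      exact_mod_cast this
    · rw [h]
      exact_mod_cast hE.E_neg

/-- Programs are at least as expensive as their asymptotic versions. -/
theorem CC.word {c x : ℝ} (hE : CC E c) (hc : 0 ≤ c) {M : Matrix ι ι ℤ} (h : PB M x) :
    CC M (x * c) := by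
  obtain ⟨L, rfl, hx⟩ := h
  have key : ∀ L : List (Sl ι), CC (pm L) (L.length * c) := by
    intro L
    induction L with
    | nil => simpa using CC.one
    | cons s L ih =>
      rw [pm_cons]
      refine ((hE.slide s).mul ih).le ?_
      rw [List.length_cons]
      push_cast
      linarith
  exact (key L).le (mul_le_mul_of_nonneg_right hx hc)

end one

end Vale.Agent.P338.R2.H651.PI
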