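import Vale.Agent.P338.R2.H651.PI.Rate

/-!
# Batches of slides and walkers
-/

namespace Vale.Agent.P338.R2.H651.PI

set_option linter.unusedSectionVars false

open Matrix

section tr

variable {V K K' : Type} [Fintype V] [DecidableEq V] [Fintype K] [Fintype K']

/-- `x (t k) += x (s k)` for all `k`: this is `1 + tr t s`. -/
def tr (t s : K → V) : Matrix V V ℤ := ∑ k, Matrix.single (t k) (s k) 1

theorem tr_mul_eq_zero (t s : K → V) (t' s' : K' → V) (h : ∀ k k', s k ≠ t' k') :
    tr t s * tr t' s' = 0 := by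
  unfold tr
  rw [Finset.sum_mul_sum]
  refine Finset.sum_eq_zero fun k _ => Finset.sum_eq_zero fun k' _ => ?_
  exact Matrix.single_mul_single_of_ne _ _ _ _ (h k k') _

theorem tr_mul_tr (t : K → V) (s : K' → V) (p : K → K') (s' : K' → V)
    (hs : Function.Injective s) : tr t (fun k => s (p k)) * tr s s' = tr t fun k => s' (p k) := by
  unfold tr
  rw [Finset.sum_mul_sum]
  refine Finset.sum_congr rfl fun k _ => ?_
  rw [Finset.sum_eq_single (p k)]
  · rw [Matrix.single_mul_single_same, one_mul]
  · intro k' _ hk'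
    exact Matrix.single_mul_single_of_ne _ _ _ _ (fun h => hk' (hs h).symm) _
  · intro h
    exact absurd (Finset.mem_univ _) h

theorem PB.tr (t s : K → V) (h : ∀ k k', t k ≠ s k') :
    PB (1 + PI.tr t s) (Fintype.card K) := by
  have := PB.batch (Finset.univ : Finset K) t s (fun _ => (1 : ℤ)) (fun _ _ => Or.inl rfl)
    fun k _ k' _ => h k k'
  rwa [Finset.card_univ] at this

theorem PB.sub_tr (t s : K → V) (h : ∀ k k', t k ≠ s k') :
    PB (1 - PI.tr t s) (Fintype.card K) := by
  have h1 := PB.batch (Finset.univ : Finset K) t s (fun _ => (-1 : ℤ)) (fun _ _ => Or.inr rfl)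
    fun k _ k' _ => h k k'
  rw [Finset.card_univ] at h1
  convert h1 using 1
  rw [sub_eq_add_neg, PI.tr, ← Finset.sum_neg_distrib]
  congr 1
  refine Finset.sum_congr rfl fun k _ => ?_
  ext i j
  simp only [Matrix.single_apply, Matrix.neg_apply]
  split_ifs <;> simp

/-- A batch of differences: `x (t k) += x (f (p k)) - x (g (p k))` costs hardly more than one
addition for each `k`. -/
theorem PB.diff (t : K → V) (f g : K' → V) (p : K → K') (hf : Function.Injective f)
    (htf : ∀ k k', t k ≠ f k') (htg : ∀ k k', t k ≠ g k') (hfg : ∀ k k', f k ≠ g k') :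
    PB (1 + (PI.tr t (fun k => f (p k)) - PI.tr t fun k => g (p k)))
      (Fintype.card K + 2 * Fintype.card K') := by
  have h1 : 1 + (PI.tr t (fun k => f (p k)) - PI.tr t fun k => g (p k)) =
      (1 + PI.tr f g) * (1 + PI.tr t fun k => f (p k)) * (1 - PI.tr f g) := by
    have e1 : PI.tr f g * (PI.tr t fun k => f (p k)) = 0 :=
      tr_mul_eq_zero _ _ _ _ fun k k' => (htg k' k).symm
    have e2 : (PI.tr t fun k => f (p k)) * PI.tr f g = PI.tr t fun k => g (p k) :=
      tr_mul_tr t f p g hf
    have e3 : PI.tr f g * PI.tr f g = 0 := tr_mul_eq_zero _ _ _ _ fun k k' => (hfg k' k).symm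
    have e4 : (1 + PI.tr f g) * (1 + PI.tr t fun k => f (p k)) =
        1 + PI.tr f g + PI.tr t fun k => f (p k) := by
      rw [mul_add, mul_one, add_mul, one_mul, e1, add_zero]
    rw [e4, mul_sub, mul_one, add_mul, add_mul, one_mul, e2, e3]
    abel
  rw [h1]
  exact (((PB.tr f g hfg).mul (PB.tr t (fun k => f (p k)) fun k k' => htf k (p k'))).mul
    (PB.sub_tr f g hfg)).le (le_of_eq (by ring))

end tr

/-! ### One way maps -/

section oneway

variable {V : Type} [Fintype V] [DecidableEq V]

/-- `N` leads from the cells outside `p` to the cells in `p`. -/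
def OneWay (p : V → Prop) (N : Matrix V V ℤ) : Prop := ∀ i j, N i j ≠ 0 → p i ∧ ¬ p j

theorem OneWay.mul {p : V → Prop} {N N' : Matrix V V ℤ} (h : OneWay p N) (h' : OneWay p N') :
    N * N' = 0 := by
  ext i j
  rw [Matrix.mul_apply, Matrix.zero_apply]
  refine Finset.sum_eq_zero fun k _ => ?_
  by_contra hne
  exact (h i k (left_ne_zero_of_mul hne)).2 (h' k j (right_ne_zero_of_mul hne)).1

theorem OneWay.zero {p : V → Prop} : OneWay p (0 : Matrix V V ℤ) := by
  intro i j h
  simp at h

theorem OneWay.add {p : V → Prop} {N N' : Matrix V V ℤ} (h : OneWay p N) (h' : OneWay p N') :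
    OneWay p (N + N') := by
  intro i j hij
  by_cases h0 : N i j = 0
  · refine h' i j fun h1 => hij ?_
    rw [Matrix.add_apply, h0, h1, add_zero]
  · exact h i j h0

theorem OneWay.neg {p : V → Prop} {N : Matrix V V ℤ} (h : OneWay p N) : OneWay p (-N) := by
  intro i j hij
  refine h i j fun h1 => hij ?_
  rw [Matrix.neg_apply, h1, neg_zero]

theorem OneWay.sub {p : V → Prop} {N N' : Matrix V V ℤ} (h : OneWay p N) (h' : OneWay p N') :
    OneWay p (N - N') := by
  rw [sub_eq_add_neg]
  exact h.add h'.neg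

theorem OneWay.sum {p : V → Prop} {K : Type} (S : Finset K) (N : K → Matrix V V ℤ)
    (h : ∀ k, OneWay p (N k)) : OneWay p (∑ k ∈ S, N k) := by
  classical
  induction S using Finset.induction_on with
  | empty => rw [Finset.sum_empty]; exact OneWay.zero
  | insert a S ha ih =>
    rw [Finset.sum_insert ha]
    exact (h a).add ih

theorem OneWay.tr {p : V → Prop} {K : Type} [Fintype K] {t s : K → V} (ht : ∀ k, p (t k))
    (hs : ∀ k, ¬ p (s k)) : OneWay p (tr t s) := by
  refine OneWay.sum _ _ fun k i j hij => ?_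
  rw [Matrix.single_apply] at hij
  split_ifs at hij with h
  · rw [← h.1, ← h.2]
    exact ⟨ht k, hs k⟩
  · exact absurd rfl hij

/-- `1 + N` is a product of `x` slides, `N` a one way map. -/
structure OP (p : V → Prop) (N : Matrix V V ℤ) (x : ℝ) : Prop where
  ow : OneWay p N
  pb : PB (1 + N) x

theorem OP.add {p : V → Prop} {N N' : Matrix V V ℤ} {x x' : ℝ} (h : OP p N x) (h' : OP p N' x') :
    OP p (N + N') (x + x') := by
  refine ⟨h.ow.add h'.ow, ?_⟩
  have h1 : 1 + (N + N') = (1 + N) * (1 + N') := by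
    rw [mul_add, mul_one, add_mul, one_mul, h.ow.mul h'.ow]
    abel
  rw [h1]
  exact h.pb.mul h'.pb

theorem OP.le {p : V → Prop} {N : Matrix V V ℤ} {x x' : ℝ} (h : OP p N x) (hx : x ≤ x') :
    OP p N x' := ⟨h.ow, h.pb.le hx⟩

theorem OP.zero {p : V → Prop} : OP p (0 : Matrix V V ℤ) 0 :=
  ⟨OneWay.zero, by rw [add_zero]; exact PB.one⟩

theorem OP.sum {p : V → Prop} {K : Type} (S : Finset K) (N : K → Matrix V V ℤ) {x : ℝ}
    (h : ∀ k, OP p (N k) x) : OP p (∑ k ∈ S, N k) (S.card * x) := by
  classical
  induction S using Finset.induction_on with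
  | empty => simpa using OP.zero
  | insert a S ha ih =>
    rw [Finset.sum_insert ha, Finset.card_insert_of_notMem ha]
    refine ((h a).add ih).le ?_
    push_cast
    linarith

end oneway

/-! ### Walkers -/

section walk

variable {V : Type} [Fintype V] [DecidableEq V]

/-- The walker lemma. -/
theorem walk (P R : ℕ → Matrix V V ℤ) (hPP : ∀ i j, P i * P j = 0) (hRR : ∀ i j, R i * R j = 0)
    (hPR : ∀ i j, P i * R j = 0) (a b : ℕ → ℝ) (a0 : ℝ) (ha0 : PB (1 + P 0) a0)
    (ha : ∀ k, PB (1 + (P (k + 1) - P k)) (a k)) (hb : ∀ k, PB (1 + R k) (b k))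
    (M : ℕ) (z : ℝ) (hz : PB (1 - P M) z) :
    PB (1 + ∑ k ∈ Finset.range (M + 1), (R k + R k * P k))
      (z + a0 + ∑ k ∈ Finset.range M, a k + ∑ k ∈ Finset.range (M + 1), b k) := by
  have key : ∀ M : ℕ, PB ((1 + P M) * (1 + ∑ k ∈ Finset.range (M + 1), (R k + R k * P k)))
      (a0 + ∑ k ∈ Finset.range M, a k + ∑ k ∈ Finset.range (M + 1), b k) := by
    intro M
    induction M with
    | zero =>
      have h1 : (1 + P 0) * (1 + ∑ k ∈ Finset.range (0 + 1), (R k + R k * P k)) =
          (1 + R 0) * (1 + P 0) := by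
        have e1 : P 0 * (R 0 + R 0 * P 0) = 0 := by
          rw [mul_add, ← Matrix.mul_assoc, hPR, Matrix.zero_mul, add_zero]
        rw [Finset.sum_range_one, add_mul, one_mul, mul_add (P 0), mul_one, e1, add_mul, one_mul,
          mul_add (R 0), mul_one]
        abel
      rw [h1]
      refine ((hb 0).mul ha0).le ?_
      simp
      linarith
    | succ M ih =>
      set T := ∑ k ∈ Finset.range (M + 1), (R k + R k * P k) with hT
      have hRT : R (M + 1) * T = 0 := by
        rw [hT, Finset.mul_sum]
        refine Finset.sum_eq_zero fun k _ => ?_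
        rw [mul_add, ← Matrix.mul_assoc, hRR, Matrix.zero_mul, add_zero]
      have hPT : P (M + 1) * T = 0 := by
        rw [hT, Finset.mul_sum]
        refine Finset.sum_eq_zero fun k _ => ?_
        rw [mul_add, ← Matrix.mul_assoc, hPR, Matrix.zero_mul, add_zero]
      have hPT' : P M * T = 0 := by
        rw [hT, Finset.mul_sum]
        refine Finset.sum_eq_zero fun k _ => ?_
        rw [mul_add, ← Matrix.mul_assoc, hPR, Matrix.zero_mul, add_zero]
      have h1 : (1 + P (M + 1)) * (1 + ∑ k ∈ Finset.range (M + 1 + 1), (R k + R k * P k)) =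
          ((1 + R (M + 1)) * (1 + (P (M + 1) - P M))) * ((1 + P M) * (1 + T)) := by
        have e1 : (1 + P M) * (1 + T) = 1 + P M + T := by
          rw [mul_add, mul_one, add_mul, one_mul, hPT', add_zero]
        have e2 : (1 + (P (M + 1) - P M)) * (1 + P M + T) = 1 + P (M + 1) + T := by
          rw [add_mul, one_mul, sub_mul, mul_add, mul_add, mul_one, hPP, hPT, mul_add, mul_add,
            mul_one, hPP, hPT']
          abel
        have e3 : (1 + R (M + 1)) * (1 + P (M + 1) + T) =
            1 + P (M + 1) + T + R (M + 1) + R (M + 1) * P (M + 1) := by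
          rw [add_mul, one_mul, mul_add, mul_add, mul_one, hRT]
          abel
        have e4 : (1 + P (M + 1)) * (1 + (T + (R (M + 1) + R (M + 1) * P (M + 1)))) =
            1 + P (M + 1) + T + R (M + 1) + R (M + 1) * P (M + 1) := by
          rw [add_mul, one_mul, mul_add, mul_one, mul_add, mul_add, hPT, ← Matrix.mul_assoc, hPR,
            Matrix.zero_mul]
          abel
        rw [Finset.sum_range_succ, ← hT, e4, Matrix.mul_assoc, e1, e2, e3]
      rw [h1]
      refine (((hb (M + 1)).mul (ha M)).mul ih).le ?_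
      have e5 := Finset.sum_range_succ a M
      have e6 := Finset.sum_range_succ b (M + 1)
      linarith
  have h1 : (1 + ∑ k ∈ Finset.range (M + 1), (R k + R k * P k)) =
      (1 - P M) * ((1 + P M) * (1 + ∑ k ∈ Finset.range (M + 1), (R k + R k * P k))) := by
    rw [← Matrix.mul_assoc, sub_mul 1, one_mul, mul_add (P M), mul_one, hPP]
    simp
  rw [h1]
  exact (hz.mul (key M)).le (by linarith)

end walk

end Vale.Agent.P338.R2.H651.PI
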