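import Vale.Agent.P338.R2.H651.PI.Star4

/-!
# The zeta transform and the star
-/

namespace Vale.Agent.P338.R2.H651.PI

set_option linter.unusedSectionVars false

open Matrix

/-- The subsets of `{0, …, n-1}`: those with `0`, and those without. -/
def W : ℕ → Type
  | 0 => Unit
  | n + 1 => W n ⊕ W n

instance W.fintype : (n : ℕ) → Fintype (W n)
  | 0 => (inferInstance : Fintype Unit)
  | n + 1 => letI := W.fintype n; (inferInstance : Fintype (W n ⊕ W n))

instance W.decEq : (n : ℕ) → DecidableEq (W n)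
  | 0 => (inferInstance : DecidableEq Unit)
  | n + 1 => letI := W.decEq n; (inferInstance : DecidableEq (W n ⊕ W n))

instance W.nonempty : (n : ℕ) → Nonempty (W n)
  | 0 => (inferInstance : Nonempty Unit)
  | n + 1 => letI := W.nonempty n; (inferInstance : Nonempty (W n ⊕ W n))

theorem W.card : (n : ℕ) → Fintype.card (W n) = 2 ^ n
  | 0 => rfl
  | n + 1 => by
    have h := W.card n
    have h1 : Fintype.card (W (n + 1)) = Fintype.card (W n ⊕ W n) := rfl
    rw [h1, Fintype.card_sum, h]
    ring

/-- The empty set. -/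
def emp : (n : ℕ) → W n
  | 0 => ()
  | n + 1 => (Sum.inr (emp n) : W n ⊕ W n)

/-- The zeta transform. -/
def Zm : (n : ℕ) → Matrix (W n) (W n) ℤ
  | 0 => (1 : Matrix Unit Unit ℤ)
  | n + 1 => (fromBlocks (Zm n) (Zm n) 0 (Zm n) : Matrix (W n ⊕ W n) (W n ⊕ W n) ℤ)

/-- Only the entry at the empty set. -/
def single (n : ℕ) : Matrix (W n) (W n) ℤ := Matrix.of fun x y => if x = emp n ∧ y = emp n then 1 else 0

/-- The singletons receive the empty set. -/
def Sm : (n : ℕ) → Matrix (W n) (W n) ℤ
  | 0 => (1 : Matrix Unit Unit ℤ)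
  | n + 1 => (fromBlocks 1 (single n) 0 (Sm n) : Matrix (W n ⊕ W n) (W n ⊕ W n) ℤ)

/-- The sets with at least two elements receive the set without its least element. -/
def Pm : (n : ℕ) → Matrix (W n) (W n) ℤ
  | 0 => (1 : Matrix Unit Unit ℤ)
  | n + 1 => (fromBlocks 1 (1 - single n) 0 (Pm n) : Matrix (W n ⊕ W n) (W n ⊕ W n) ℤ)

/-- The zeta transform in the classes of sets with the same least element. -/
def Qm : (n : ℕ) → Matrix (W n) (W n) ℤ
  | 0 => (1 : Matrix Unit Unit ℤ)
  | n + 1 => (fromBlocks (Zm n) 0 0 (Qm n) : Matrix (W n ⊕ W n) (W n ⊕ W n) ℤ)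

theorem Pm_emp : (n : ℕ) → ∀ y, Pm n (emp n) y = if y = emp n then 1 else 0
  | 0 => fun y => by
    cases y
    exact Matrix.one_apply_eq ()
  | n + 1 => fun y => by
    have ih := Pm_emp n
    rcases y with y | y
    · have h1 : Pm (n + 1) (emp (n + 1)) (Sum.inl y : W n ⊕ W n) = 0 := rfl
      have h2 : (Sum.inl y : W n ⊕ W n) ≠ Sum.inr (emp n) := Sum.inl_ne_inr
      rw [h1]
      exact (if_neg h2).symm
    · have h1 : Pm (n + 1) (emp (n + 1)) (Sum.inr y : W n ⊕ W n) = Pm n (emp n) y := rfl
      rw [h1, ih]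
      by_cases hy : y = emp n
      · rw [if_pos hy]
        subst hy
        exact (if_pos rfl).symm
      · rw [if_neg hy]
        have h2 : (Sum.inr y : W n ⊕ W n) ≠ Sum.inr (emp n) := fun h => hy (Sum.inr_injective h)
        exact (if_neg h2).symm

theorem single_mul_Pm (n : ℕ) : single n * Pm n = single n := by
  ext x y
  rw [Matrix.mul_apply]
  simp only [single, Matrix.of_apply]
  rw [Finset.sum_eq_single (emp n)]
  · rw [Pm_emp]
    by_cases hx : x = emp n <;> by_cases hy : y = emp n <;> simp [hx, hy]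
  · intro z _ hz
    simp [hz]
  · intro h
    exact absurd (Finset.mem_univ _) h

theorem Zm_eq : (n : ℕ) → Zm n = Qm n * Sm n * Pm n
  | 0 => by
    have h1 : (1 : Matrix Unit Unit ℤ) = 1 * 1 * 1 := by simp
    exact h1
  | n + 1 => by
    have ih := Zm_eq n
    have h1 : (fromBlocks (Zm n) (Zm n) 0 (Zm n) : Matrix (W n ⊕ W n) (W n ⊕ W n) ℤ) =
        (fromBlocks (Zm n) 0 0 (Qm n) : Matrix (W n ⊕ W n) (W n ⊕ W n) ℤ) *
        (fromBlocks 1 (single n) 0 (Sm n) : Matrix (W n ⊕ W n) (W n ⊕ W n) ℤ) *
        (fromBlocks 1 (1 - single n) 0 (Pm n) : Matrix (W n ⊕ W n) (W n ⊕ W n) ℤ) := by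
      rw [fromBlocks_multiply, fromBlocks_multiply]
      simp only [Matrix.mul_one, Matrix.zero_mul, Matrix.mul_zero, add_zero, zero_add]
      rw [← ih, Matrix.mul_assoc, single_mul_Pm, Matrix.mul_sub, Matrix.mul_one, sub_add_cancel]
    exact h1

/-! ### Lengths -/

theorem eqv_Zm : (n : ℕ) → Eqv (Zm n) (tpow E n)
  | 0 => (tpow_zero E).symm
  | n + 1 => by
    have ih := eqv_Zm n
    have h1 : Eqv (fromBlocks (Zm n) (Zm n) 0 (Zm n)) (tensor E (Zm n)) := by
      refine Eqv.symm ⟨Equiv.boolProdEquivSum _, ?_⟩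
      ext ⟨a, x⟩ ⟨b, y⟩
      rcases a <;> rcases b <;> simp
    exact h1.trans (((Eqv.refl E).tensor ih).trans (tpow_succ E n).symm)

/-- A batch of slides from one half to the other. -/
theorem pb_shift (n : ℕ) (S : Finset (W n)) : PB (fromBlocks 1 (Matrix.diagonal fun x =>
    if x ∈ S then (1 : ℤ) else 0) 0 1 : Matrix (W n ⊕ W n) (W n ⊕ W n) ℤ) S.card := by
  have h1 := PB.batch S (fun x => (Sum.inl x : W n ⊕ W n)) (fun x => Sum.inr x) (fun _ => (1 : ℤ))
    (fun _ _ => Or.inl rfl) (fun _ _ _ _ => Sum.inl_ne_inr)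
  convert h1 using 1
  ext (x | x) (y | y)
  · rw [Matrix.add_apply, Matrix.sum_apply, Finset.sum_eq_zero]
    · simp [Matrix.one_apply]
    · intro k _
      simp
  · rw [Matrix.add_apply, Matrix.sum_apply]
    simp only [fromBlocks_apply₁₂, Matrix.diagonal_apply, Matrix.single_apply, Sum.inl.injEq,
      Sum.inr.injEq]
    by_cases hxy : x = y
    · subst hxy
      simp
    · rw [if_neg hxy, Finset.sum_eq_zero]
      · simp
      · intro k _
        rw [if_neg]
        rintro ⟨rfl, rfl⟩
        exact hxy rfl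
  · rw [Matrix.add_apply, Matrix.sum_apply, Finset.sum_eq_zero]
    · simp
    · intro k _
      simp
  · rw [Matrix.add_apply, Matrix.sum_apply, Finset.sum_eq_zero]
    · simp [Matrix.one_apply]
    · intro k _
      simp

theorem pb_Zm : (n : ℕ) → PB (Zm n) ((n : ℝ) * 2 ^ (n - 1))
  | 0 => by
    have h1 : PB (1 : Matrix Unit Unit ℤ) 0 := PB.one
    exact h1.le (by simp)
  | n + 1 => by
    have ih := pb_Zm n
    have h1 : (fromBlocks (Zm n) (Zm n) 0 (Zm n) : Matrix (W n ⊕ W n) (W n ⊕ W n) ℤ) =
        (fromBlocks 1 (Matrix.diagonal fun x => if x ∈ Finset.univ then (1 : ℤ) else 0) 0 1) *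
        (fromBlocks (Zm n) 0 0 (Zm n) : Matrix (W n ⊕ W n) (W n ⊕ W n) ℤ) := by
      rw [fromBlocks_multiply]
      simp
    have h2 : PB (fromBlocks (Zm n) (Zm n) 0 (Zm n) : Matrix (W n ⊕ W n) (W n ⊕ W n) ℤ)
        (((n + 1 : ℕ) : ℝ) * 2 ^ (n + 1 - 1)) := by
      rw [h1]
      refine ((pb_shift n Finset.univ).mul (ih.sum ih)).le (le_of_eq ?_)
      rw [Finset.card_univ, W.card]
      rcases n with _ | n
      · norm_num
      · simp only [Nat.add_sub_cancel]
        push_cast
        ring
    exact h2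

theorem pb_Qm : (n : ℕ) → PB (Qm n) ((n : ℝ) * 2 ^ (n - 1) - 2 ^ n + 1)
  | 0 => by
    have h1 : PB (1 : Matrix Unit Unit ℤ) 0 := PB.one
    exact h1.le (by simp)
  | n + 1 => by
    have ih := pb_Qm n
    have h1 : PB (fromBlocks (Zm n) 0 0 (Qm n) : Matrix (W n ⊕ W n) (W n ⊕ W n) ℤ)
      (((n + 1 : ℕ) : ℝ) * 2 ^ (n + 1 - 1) - 2 ^ (n + 1) + 1) := by
      refine ((pb_Zm n).sum ih).le (le_of_eq ?_)
      rcases n with _ | n
      · norm_num
      · simp only [Nat.add_sub_cancel]
        push_cast
        ring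
    exact h1

theorem pb_Pm : (n : ℕ) → PB (Pm n) ((2 : ℝ) ^ n - 1 - n)
  | 0 => by
    have h1 : PB (1 : Matrix Unit Unit ℤ) 0 := PB.one
    exact h1.le (by simp)
  | n + 1 => by
    have ih := pb_Pm n
    have h0 : (1 - single n : Matrix (W n) (W n) ℤ) =
        Matrix.diagonal fun x => if x ∈ Finset.univ.erase (emp n) then (1 : ℤ) else 0 := by
      ext x y
      simp only [Matrix.sub_apply, Matrix.one_apply, Matrix.diagonal_apply, single,
        Matrix.of_apply, Finset.mem_erase, Finset.mem_univ, and_true]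
      by_cases hxy : x = y
      · subst hxy
        by_cases hx : x = emp n <;> simp [hx]
      · rw [if_neg hxy, if_neg hxy, if_neg]
        · simp
        · rintro ⟨rfl, rfl⟩
          exact hxy rfl
    have h1 : (fromBlocks 1 (1 - single n) 0 (Pm n) : Matrix (W n ⊕ W n) (W n ⊕ W n) ℤ) =
        (fromBlocks 1 0 0 (Pm n) : Matrix (W n ⊕ W n) (W n ⊕ W n) ℤ) *
        (fromBlocks 1 (1 - single n) 0 1 : Matrix (W n ⊕ W n) (W n ⊕ W n) ℤ) := by
      rw [fromBlocks_multiply]
      simp
    have h2 : PB (fromBlocks 1 (1 - single n) 0 (Pm n) : Matrix (W n ⊕ W n) (W n ⊕ W n) ℤ)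
        ((2 : ℝ) ^ (n + 1) - 1 - (n + 1 : ℕ)) := by
      rw [h1, h0]
      refine (ih.inr.mul (pb_shift n _)).le (le_of_eq ?_)
      rw [Finset.card_erase_of_mem (Finset.mem_univ _), Finset.card_univ, W.card,
        Nat.cast_sub Nat.one_le_two_pow]
      push_cast
      ring
    exact h2

/-! ### The star -/

/-- The empty set and the singletons. -/
def sing : (n : ℕ) → Option (Fin n) → W n
  | 0 => fun _ => ()
  | n + 1 => fun i => match i with
    | none => (Sum.inr (emp n) : W n ⊕ W n)
    | some i => Fin.cases (Sum.inl (emp n) : W n ⊕ W n)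
        (fun j => (Sum.inr (sing n (some j)) : W n ⊕ W n)) i

theorem sing_none : (n : ℕ) → sing n none = emp n
  | 0 => rfl
  | _ + 1 => rfl

theorem sing_ne : (n : ℕ) → ∀ i, sing n (some i) ≠ emp n
  | 0 => fun i => i.elim0
  | n + 1 => fun i => by
    have ih := sing_ne n
    induction i using Fin.cases with
    | zero => exact (Sum.inl_ne_inr : (Sum.inl (emp n) : W n ⊕ W n) ≠ Sum.inr (emp n))
    | succ j => exact fun h => ih j (Sum.inr_injective (α := W n) h)

theorem sing_some_inj : (n : ℕ) → ∀ i j, sing n (some i) = sing n (some j) → i = j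
  | 0 => fun i => i.elim0
  | n + 1 => fun i j => by
    have ih := sing_some_inj n
    induction i using Fin.cases with
    | zero =>
      induction j using Fin.cases with
      | zero => exact fun _ => rfl
      | succ j => exact fun h => absurd h Sum.inl_ne_inr
    | succ i =>
      induction j using Fin.cases with
      | zero => exact fun h => absurd h Sum.inr_ne_inl
      | succ j =>
        intro h
        rw [ih i j (Sum.inr_injective (α := W n) h)]

theorem sing_inj (n : ℕ) : Function.Injective (sing n) := by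
  rintro (_ | i) (_ | j) h
  · rfl
  · rw [sing_none] at h
    exact absurd h.symm (sing_ne n j)
  · rw [sing_none] at h
    exact absurd h (sing_ne n i)
  · rw [sing_some_inj n i j h]

theorem Sm_diag : (n : ℕ) → ∀ x, Sm n x x = 1
  | 0 => fun x => by
    cases x
    exact Matrix.one_apply_eq ()
  | n + 1 => fun x => by
    have ih := Sm_diag n
    rcases x with x | x
    · exact Matrix.one_apply_eq (α := ℤ) x
    · exact ih x

theorem single_apply (n : ℕ) (x y : W n) : single n x y = if x = emp n ∧ y = emp n then 1 else 0 :=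
  rfl

theorem Sm_star : (n : ℕ) → ∀ i, Sm n (sing n (some i)) (emp n) = 1
  | 0 => fun i => i.elim0
  | n + 1 => fun i => by
    have ih := Sm_star n
    induction i using Fin.cases with
    | zero =>
      have h1 : single n (emp n) (emp n) = 1 := by simp [single_apply]
      exact h1
    | succ j => exact ih j

theorem Sm_zero : (n : ℕ) → ∀ x y, x ≠ y → (y = emp n → ∀ i, x ≠ sing n (some i)) →
    Sm n x y = 0
  | 0 => fun x y h _ => absurd (show x = y from (Subsingleton.elim (α := Unit) x y)) h
  | n + 1 => fun x y h h' => by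
    have ih := Sm_zero n
    rcases x with x | x <;> rcases y with y | y
    · have h1 : x ≠ y := fun e => h (congrArg (Sum.inl (β := W n)) e)
      exact Matrix.one_apply_ne (α := ℤ) h1
    · have h1 : single n x y = 0 := by
        rw [single_apply, if_neg]
        rintro ⟨hx, hy⟩
        exact h' (congrArg (Sum.inr (α := W n)) hy) 0 (congrArg (Sum.inl (β := W n)) hx)
      exact h1
    · rfl
    · exact ih x y (fun e => h (congrArg (Sum.inr (α := W n)) e)) fun hy i hx =>
        h' (congrArg (Sum.inr (α := W n)) hy) i.succ (congrArg (Sum.inr (α := W n)) hx)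

/-- The star in the family of all sets is the star. -/
theorem CC.Sm {n : ℕ} {x : ℝ} (h : CC (Star n) x) : CC (Sm n) x := by
  have key : ∀ x y, (x ∉ Set.range (sing n) ∨ y ∉ Set.range (sing n)) →
      PI.Sm n x y = (1 : Matrix (W n) (W n) ℤ) x y := by
    intro x y hxy
    rw [Matrix.one_apply]
    by_cases h : x = y
    · rw [if_pos h, h, Sm_diag]
    · rw [if_neg h]
      refine Sm_zero n x y h fun hy i hx => ?_
      rcases hxy with h1 | h1
      · exact h1 ⟨some i, hx.symm⟩
      · exact h1 ⟨none, (sing_none n).trans hy.symm⟩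
  refine CC.of_inj (sing_inj n) key ?_
  have h2 : (PI.Sm n).submatrix (sing n) (sing n) = Star n := by
    ext i j
    rw [Matrix.submatrix_apply]
    simp only [Star, Matrix.of_apply]
    by_cases hij : i = j
    · rw [if_pos (Or.inl hij), hij, Sm_diag]
    · rcases j with _ | j
      · rcases i with _ | i
        · exact absurd rfl hij
        · rw [if_pos (Or.inr rfl), sing_none, Sm_star]
      · rw [if_neg (by simp [hij])]
        exact Sm_zero n _ _ (fun h => hij (sing_inj n h)) fun h => absurd h (sing_ne n j)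
  rw [h2]
  exact h

end Vale.Agent.P338.R2.H651.PI
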